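import Mathlib

/-!
# Truncated polynomial presentations of local commutative algebras: abstract lemmas
-/

namespace P179H342

open Module

/-- the monomial with exponents `a` -/
def mono {ι A : Type*} [Fintype ι] [CommMonoid A] (z : ι → A) (a : ι → ℕ) : A :=
  ∏ i, z i ^ a i

theorem mono_zero {ι A : Type*} [Fintype ι] [CommMonoid A] (z : ι → A) : mono z 0 = 1 := by
  simp [mono]

theorem mono_add {ι A : Type*} [Fintype ι] [CommMonoid A] (z : ι → A) (a b : ι → ℕ) :
    mono z (a + b) = mono z a * mono z b := by
  simp [mono, pow_add, Finset.prod_mul_distrib]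

theorem mono_single {ι A : Type*} [Fintype ι] [DecidableEq ι] [CommMonoid A] (z : ι → A) (i : ι) :
    mono z (Pi.single i 1) = z i := by
  unfold mono
  rw [Finset.prod_eq_single i]
  · simp
  · intro j _ hj
    simp [hj]
  · intro h; exact absurd (Finset.mem_univ _) h

theorem mono_eq_zero {ι A : Type*} [Fintype ι] [CommMonoidWithZero A] (z : ι → A) (a q : ι → ℕ)
    (hz : ∀ i, z i ^ q i = 0) {i : ι} (hi : q i ≤ a i) : mono z a = 0 := by
  unfold mono
  apply Finset.prod_eq_zero (Finset.mem_univ i)
  rw [← Nat.sub_add_cancel hi, pow_add, hz, mul_zero]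

section Gen

variable {k A ι : Type*} [Field k] [CommRing A] [Algebra k A] [Fintype ι]

/-- generation of `A` by lifts of a basis of `J / J ^ 2` -/
theorem adjoin_eq_top (J : Ideal A) (hJ : IsNilpotent J)
    (hk : ∀ a : A, ∃ c : k, a - algebraMap k A c ∈ J) (z : ι → A)
    (hzJ : ∀ i, z i ∈ J) (hz : ∀ x ∈ J, ∃ l : ι → k, x - ∑ i, l i • z i ∈ J ^ 2) :
    Algebra.adjoin k (Set.range z) = ⊤ := by
  set B := Algebra.adjoin k (Set.range z) with hB
  have hzB : ∀ i, z i ∈ B := fun i => Algebra.subset_adjoin ⟨i, rfl⟩
  have hsB : ∀ l : ι → k, ∑ i, l i • z i ∈ B := fun l =>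
    Subalgebra.sum_mem _ fun i _ => Subalgebra.smul_mem _ (hzB i) _
  have hsJ : ∀ l : ι → k, ∑ i, l i • z i ∈ J := fun l =>
    Submodule.sum_mem _ fun i _ => by
      rw [Algebra.smul_def]
      exact J.mul_mem_left _ (hzJ i)
  -- the graded pieces
  have hQ : ∀ n : ℕ, ∀ y ∈ J ^ n, ∃ b ∈ B, y - b ∈ J ^ (n + 1) := by
    intro n
    induction n with
    | zero =>
      intro y _
      obtain ⟨c, hc⟩ := hk y
      exact ⟨_, B.algebraMap_mem c, by simpa using hc⟩
    | succ n ih =>
      intro y hy
      rw [pow_succ] at hy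
      refine Submodule.mul_induction_on hy ?_ ?_
      · intro u hu v hv
        obtain ⟨b, hb, hub⟩ := ih u hu
        obtain ⟨l, hl⟩ := hz v hv
        refine ⟨b * ∑ i, l i • z i, B.mul_mem hb (hsB l), ?_⟩
        have hbJ : b ∈ J ^ n := by
          have : b = u - (u - b) := by ring
          rw [this]
          exact sub_mem hu (Ideal.pow_le_pow_right (Nat.le_succ n) hub)
        have h1 : u * v - b * ∑ i, l i • z i
            = (u - b) * v + b * (v - ∑ i, l i • z i) := by ring
        rw [h1]
        refine add_mem ?_ ?_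
        · have := Ideal.mul_mem_mul hub hv
          rwa [← pow_succ] at this
        · have := Ideal.mul_mem_mul hbJ hl
          rwa [← pow_add] at this
      · rintro x y ⟨b, hb, hxb⟩ ⟨c, hc, hyc⟩
        refine ⟨b + c, B.add_mem hb hc, ?_⟩
        have : x + y - (b + c) = (x - b) + (y - c) := by ring
        rw [this]
        exact add_mem hxb hyc
  have hP : ∀ n : ℕ, ∀ x : A, ∃ b ∈ B, x - b ∈ J ^ n := by
    intro n
    induction n with
    | zero => intro x; exact ⟨0, B.zero_mem, by simp⟩
    | succ n ih =>
      intro x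
      obtain ⟨b, hb, hxb⟩ := ih x
      obtain ⟨c, hc, hxc⟩ := hQ n _ hxb
      refine ⟨b + c, B.add_mem hb hc, ?_⟩
      have : x - (b + c) = x - b - c := by ring
      rwa [this]
  obtain ⟨n, hn⟩ := hJ
  rw [eq_top_iff]
  intro x _
  obtain ⟨b, hb, hxb⟩ := hP n x
  rw [hn] at hxb
  have : x = b := by
    rw [Ideal.zero_eq_bot, Ideal.mem_bot] at hxb
    exact sub_eq_zero.mp hxb
  rw [this]; exact hb

/-- the monomials with bounded exponents span -/
theorem span_mono_eq_top (z : ι → A) (hgen : Algebra.adjoin k (Set.range z) = ⊤) (q : ι → ℕ)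
    (hz : ∀ i, z i ^ q i = 0) :
    ⊤ ≤ Submodule.span k (Set.range fun a : (i : ι) → Fin (q i) => mono z fun i => (a i : ℕ)) := by
  classical
  have h1 : Subalgebra.toSubmodule (Algebra.adjoin k (Set.range z)) = ⊤ := by
    rw [hgen]; exact Algebra.top_toSubmodule
  rw [← h1, Algebra.adjoin_eq_span, Submodule.span_le]
  intro x hx
  have h2 : ∃ a : ι → ℕ, x = mono z a := by
    refine Submonoid.closure_induction (motive := fun x _ => ∃ a : ι → ℕ, x = mono z a) ?_ ?_ ?_ hx
    · rintro _ ⟨i, rfl⟩
      exact ⟨Pi.single i 1, (mono_single z i).symm⟩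
    · exact ⟨0, (mono_zero z).symm⟩
    · rintro x y _ _ ⟨a, rfl⟩ ⟨b, rfl⟩
      exact ⟨a + b, (mono_add z a b).symm⟩
  obtain ⟨a, rfl⟩ := h2
  by_cases h : ∀ i, a i < q i
  · exact Submodule.subset_span ⟨fun i => ⟨a i, h i⟩, rfl⟩
  · push Not at h
    obtain ⟨i, hi⟩ := h
    rw [mono_eq_zero z a q hz hi]
    exact Submodule.zero_mem _

/-- the basis of monomials -/
noncomputable def monoBasis (z : ι → A) (hgen : Algebra.adjoin k (Set.range z) = ⊤) (q : ι → ℕ)
    (hz : ∀ i, z i ^ q i = 0) (hcard : ∏ i, q i = finrank k A) :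
    Basis ((i : ι) → Fin (q i)) k A := by
  classical
  exact basisOfTopLeSpanOfCardEqFinrank _ (span_mono_eq_top z hgen q hz) (by
    rw [← hcard, Fintype.card_pi]; simp)

theorem monoBasis_apply (z : ι → A) (hgen : Algebra.adjoin k (Set.range z) = ⊤) (q : ι → ℕ)
    (hz : ∀ i, z i ^ q i = 0) (hcard : ∏ i, q i = finrank k A) (a : (i : ι) → Fin (q i)) :
    monoBasis z hgen q hz hcard a = mono z fun i => (a i : ℕ) := by
  classical
  unfold monoBasis
  rw [coe_basisOfTopLeSpanOfCardEqFinrank]

end Gen

section Pick

variable {k V ι C : Type*} [Field k] [AddCommGroup V] [Module k V] [Fintype ι] [DecidableEq ι]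
  [Fintype C]

/-- replace the members of a basis by suitable components -/
theorem exists_pick (v : ι → V) (hv : LinearIndependent k v)
    (hcard : Fintype.card ι = finrank k V) (u : ι → C → V) (hu : ∀ i, ∑ c, u i c = v i) :
    ∃ r : ι → C, LinearIndependent k fun i => u i (r i) := by
  classical
  have hfin : FiniteDimensional k V ∨ ¬ FiniteDimensional k V := em _
  by_cases hι : Nonempty ι
  · have b := basisOfLinearIndependentOfCardEqFinrank hv hcard
    have hb : (basisOfLinearIndependentOfCardEqFinrank hv hcard : ι → V) = v :=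
      coe_basisOfLinearIndependentOfCardEqFinrank hv hcard
    set e := basisOfLinearIndependentOfCardEqFinrank hv hcard with he
    have h1 : e.det v = 1 := by rw [← hb]; exact e.det_self
    have h2 : e.det v = ∑ r : ι → C, e.det fun i => u i (r i) := by
      conv_lhs => rw [show v = fun i => ∑ c, u i c from funext fun i => (hu i).symm]
      have := (e.det : V [⋀^ι]→ₗ[k] k).toMultilinearMap.map_sum (fun i c => u i c)
      exact this
    have h3 : ∃ r : ι → C, e.det (fun i => u i (r i)) ≠ 0 := by
      by_contra hcon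
      push Not at hcon
      rw [h2, Finset.sum_eq_zero fun r _ => hcon r] at h1
      exact zero_ne_one h1
    obtain ⟨r, hr⟩ := h3
    exact ⟨r, (e.is_basis_iff_det.mpr (isUnit_iff_ne_zero.mpr hr)).1⟩
  · have : IsEmpty ι := not_nonempty_iff.mp hι
    exact ⟨fun i => isEmptyElim i, linearIndependent_empty_type⟩

end Pick

section Eig

variable {k V X : Type*} [Field k] [AddCommGroup V] [Module k V] [Fintype X]

/-- the dimension of an eigenspace of a diagonal endomorphism -/
theorem finrank_eigenspace (b : Basis X k V) (f : End k V) (lam : X → k)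
    (hf : ∀ x, f (b x) = lam x • b x) (μ : k) :
    finrank k (f.eigenspace μ) = Nat.card {x : X // lam x = μ} := by
  classical
  have h1 : f.eigenspace μ = Submodule.span k (Set.range fun x : {x : X // lam x = μ} => b x) := by
    apply le_antisymm
    · intro v hv
      rw [Module.End.mem_eigenspace_iff] at hv
      have h2 : ∀ x, lam x * b.repr v x = μ * b.repr v x := by
        intro x
        have h3 : f v = ∑ y, (b.repr v y * lam y) • b y := by
          conv_lhs => rw [← b.sum_repr v, map_sum]
          refine Finset.sum_congr rfl fun y _ => ?_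
          rw [map_smul, hf, smul_smul]
        have h4 : b.repr (f v) x = b.repr v x * lam x := by
          rw [h3]
          simp only [map_sum, map_smul, Finsupp.coe_finsetSum, Finset.sum_apply,
            Finsupp.smul_apply, Basis.repr_self, smul_eq_mul]
          rw [Finset.sum_eq_single x]
          · simp
          · intro y _ hy; simp [hy]
          · intro h; exact absurd (Finset.mem_univ _) h
        rw [hv, map_smul, Finsupp.smul_apply, smul_eq_mul] at h4
        rw [h4]; ring
      rw [← b.sum_repr v]
      refine Submodule.sum_mem _ fun x _ => ?_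
      by_cases hx : lam x = μ
      · exact Submodule.smul_mem _ _ (Submodule.subset_span ⟨⟨x, hx⟩, rfl⟩)
      · have h5 : b.repr v x = 0 := by
          have h6 : (lam x - μ) * b.repr v x = 0 := by rw [sub_mul, h2 x, sub_self]
          exact (mul_eq_zero.mp h6).resolve_left (sub_ne_zero.mpr hx)
        rw [h5, zero_smul]; exact Submodule.zero_mem _
    · rw [Submodule.span_le]
      rintro _ ⟨x, rfl⟩
      show b x ∈ f.eigenspace μ
      rw [Module.End.mem_eigenspace_iff, hf, x.2]
  rw [h1, finrank_span_eq_card, Nat.card_eq_fintype_card]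
  exact b.linearIndependent.comp _ Subtype.val_injective

end Eig

end P179H342
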