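import Vale.Agent.P179.H342.K2e
import Vale.Agent.P179.H190.KD5

/-!
# Module S4A of the SIGNATURE project
-/

namespace P179H342

open Module Vale.P179.Sgn

theorem k1 : K1 := by
  intro p _ k _ _ _ D _ _ τ e he _ hD _ hτ hfree
  have : NeZero e := ⟨he⟩
  obtain ⟨ζ, M, c, ι, hι, z, q, dg, wt, bas, hζ, hM, hcard, hq, hz, _, hal, hbas, hlt, hcount, htop⟩ :=
    Vale.P179.H190.exists_mono p k D hD τ e ⟨hτ, hfree⟩
  have hb : (fun b : (i : ι) → Fin (q i) => mono z fun i => (b i : ℕ)) = bas := by
    funext b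
    exact (hbas b).symm
  refine ⟨{
    ζ := ζ
    N := e * M + 1
    c := c
    ι := ι
    fin := hι
    z := z
    q := q
    dg := dg
    wt := wt
    prim := hζ
    hN := ⟨M, hM, rfl⟩
    q_pos := hq
    z_pow := hz
    z_eig := hal
    li := by rw [hb]; exact bas.linearIndependent
    sp := by rw [hb, bas.span_eq]
    count := fun w s => ?_
    top := by rw [htop] }⟩
  split_ifs with hw h2
  · rw [hcount w hw s, if_pos h2]
  · rw [hcount w hw s, if_neg h2]
  · rw [Nat.card_eq_zero]
    left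
    refine ⟨fun b => hw ?_⟩
    rw [← b.2.1]
    exact hlt b.1

/-- MODULE S4A -/
theorem s4a : S4A := s4a_of k1

end P179H342
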