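import Vale.Agent.P179.H342.Gr1

/-!
# The interface K1 (monomial eigenbasis of `k[D]`)
-/

namespace P179H342

open Module

/-- monomial eigenbasis of `k[D]` for an automorphism `τ` of order `e` acting freely; `N` is the
number of degrees -/
structure K1Dat (k D : Type) [Field k] [CommGroup D] (τ : MulAut D) (e : ℕ) where
  ζ : k
  N : ℕ
  c : ℕ
  ι : Type
  fin : Fintype ι
  z : ι → MonoidAlgebra k D
  q : ι → ℕ
  dg : ι → ℕ
  wt : ι → ℕ
  prim : IsPrimitiveRoot ζ e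
  hN : ∃ s : ℕ, 1 ≤ s ∧ N = e * s + 1
  q_pos : ∀ i, 1 ≤ q i
  z_pow : ∀ i, z i ^ q i = 0
  z_eig : ∀ i, MonoidAlgebra.domCongr k k τ (z i) = ζ ^ wt i • z i
  li : LinearIndependent k fun b : (i : ι) → Fin (q i) => mono z fun i => (b i : ℕ)
  sp : ⊤ ≤ Submodule.span k (Set.range fun b : (i : ι) → Fin (q i) => mono z fun i => (b i : ℕ))
  count : ∀ (w : ℕ) (s : ZMod e),
    Nat.card {b : (i : ι) → Fin (q i) // ∑ i, (b i : ℕ) * dg i = w ∧
      ((∑ i, (b i : ℕ) * wt i : ℕ) : ZMod e) = s} =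
    if w < N then (if (w : ZMod e) = s then 1 else 0) + c else 0
  top : ∑ i, (q i - 1) * dg i + 1 = N

/-- MODULE K1 -/
def K1 : Prop := ∀ (p : ℕ) [Fact p.Prime] (k : Type) [Field k] [IsAlgClosed k] [CharP k p]
  (D : Type) [CommGroup D] [Fintype D] (τ : MulAut D) (e : ℕ), e ≠ 0 → ¬ p ∣ e → IsPGroup p D →
  Nontrivial D → τ ^ e = 1 → (∀ (i : ℕ) (d : D), d ≠ 1 → (τ ^ i) d = d → e ∣ i) →
  Nonempty (K1Dat k D τ e)

end P179H342
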