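import Mathlib

/-!
# Exactness from the logarithmic-derivative relations (module (C3) of the P179 plan)
-/

open PowerSeries IsLocalRing

namespace P179H342

section Factorial

variable {O : Type*} [CommRing O]

/-- `p ^ j / j!` is divisible by `p` for `j ≥ 1` when integers prime to `p` are invertible. -/
theorem exists_pow_eq_factorial_mul {p : ℕ} (hp : p.Prime)
    (hu : ∀ n : ℕ, n.Coprime p → IsUnit (n : O)) {j : ℕ} (hj : j ≠ 0) :
    ∃ c : O, ((j.factorial : ℕ) : O) * ((p : O) * c) = (p : O) ^ j := by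
  have : Fact p.Prime := ⟨hp⟩
  set v := j.factorial.factorization p with hv
  have hlt : v < j := by
    have h1 := sub_one_mul_padicValNat_factorial_lt_of_ne_zero (p := p) hj
    have h2 : v = padicValNat p j.factorial := Nat.factorization_def _ hp
    have h3 : 1 ≤ p - 1 := Nat.le_sub_one_of_lt hp.one_lt
    rw [h2]
    nlinarith
  have hcop : (j.factorial / p ^ v).Coprime p :=
    (Nat.coprime_ordCompl hp (Nat.factorial_ne_zero j)).symm
  obtain ⟨w, hw⟩ := hu _ hcop
  have hfac : (j.factorial : O) = (p : O) ^ v * ((j.factorial / p ^ v : ℕ) : O) := by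
    rw [← Nat.cast_pow, ← Nat.cast_mul, hv, Nat.ordProj_mul_ordCompl_eq_self]
  refine ⟨(p : O) ^ (j - 1 - v) * ((w⁻¹ : Oˣ) : O), ?_⟩
  rw [hfac, ← hw]
  have : (p : O) ^ j = (p : O) ^ v * ((p : O) * (p : O) ^ (j - 1 - v)) := by
    rw [← pow_succ', ← pow_add]
    congr 1
    omega
  rw [this]
  calc (p : O) ^ v * (w : O) * ((p : O) * ((p : O) ^ (j - 1 - v) * ((w⁻¹ : Oˣ) : O)))
      = (p : O) ^ v * ((p : O) * (p : O) ^ (j - 1 - v)) * ((w : O) * ((w⁻¹ : Oˣ) : O)) := by ring
    _ = _ := by rw [Units.mul_inv, mul_one]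

end Factorial

section Deriv

variable {O : Type*} [CommRing O] [IsDomain O] [CharZero O]

/-- If `G' = p B' G` with `G(0) = 1`, `B(0) = 0` and `G`, `B` integral, then `G ≡ 1 mod p`. -/
theorem dvd_coeff_of_deriv {p : ℕ} (hp : p.Prime)
    (hu : ∀ n : ℕ, n.Coprime p → IsUnit (n : O)) (G B : O⟦X⟧)
    (hG : constantCoeff G = 1) (hB : constantCoeff B = 0)
    (h : d⁄dX O G = (C (p : O)) * d⁄dX O B * G) {n : ℕ} (hn : n ≠ 0) :
    (p : O) ∣ coeff n G := by
  have hex : ∀ j : ℕ, ∃ c : O, ((j.factorial : ℕ) : O) * c = (p : O) ^ j ∧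
      (j ≠ 0 → (p : O) ∣ c) ∧ (j = 0 → c = 1) := by
    intro j
    by_cases hj : j = 0
    · subst hj
      exact ⟨1, by simp, by simp, by simp⟩
    · obtain ⟨c, hc⟩ := exists_pow_eq_factorial_mul hp hu hj
      exact ⟨p * c, hc, fun _ => dvd_mul_right _ _, fun h => absurd h hj⟩
  choose c hc hcp hc0 using hex
  have hrec : ∀ j : ℕ, ((j : O) + 1) * c (j + 1) = p * c j := by
    intro j
    have hne : ((j.factorial : ℕ) : O) ≠ 0 := Nat.cast_ne_zero.mpr (Nat.factorial_ne_zero j)
    apply mul_left_cancel₀ hne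
    have h1 := hc (j + 1)
    have h2 := hc j
    rw [Nat.factorial_succ] at h1
    push_cast at h1
    calc ((j.factorial : ℕ) : O) * (((j : O) + 1) * c (j + 1))
        = ((j : O) + 1) * (j.factorial : O) * c (j + 1) := by ring
      _ = (p : O) ^ (j + 1) := h1
      _ = (p : O) * ((j.factorial : O) * c j) := by rw [h2, pow_succ']
      _ = _ := by ring
  set E : O⟦X⟧ := ∑ j ∈ Finset.range (n + 1), C (c j) * B ^ j with hE
  have hXB : (X : O⟦X⟧) ∣ B := X_dvd_iff.mpr hB
  -- derivative of E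
  have hdE : d⁄dX O E = C (p : O) * d⁄dX O B * (E - C (c n) * B ^ n) := by
    have h1 : E - C (c n) * B ^ n = ∑ j ∈ Finset.range n, C (c j) * B ^ j := by
      rw [hE, Finset.sum_range_succ]
      ring
    rw [h1, hE, map_sum, Finset.sum_range_succ']
    have h0 : d⁄dX O (C (c 0) * B ^ 0) = 0 := by
      rw [pow_zero, mul_one]
      exact PowerSeries.derivative_C
    rw [h0, add_zero, Finset.mul_sum]
    refine Finset.sum_congr rfl fun j _ => ?_
    rw [Derivation.leibniz, Derivation.leibniz_pow, PowerSeries.derivative_C]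
    simp only [smul_eq_mul, add_zero, Nat.add_sub_cancel, nsmul_eq_mul, mul_zero]
    have hr : C (c (j + 1)) * ((j + 1 : ℕ) : O⟦X⟧) = C (p : O) * C (c j) := by
      rw [← map_natCast (C (R := O)), ← map_mul, ← map_mul, mul_comm (c (j + 1))]
      congr 1
      push_cast
      exact hrec j
    calc C (c (j + 1)) * (((j + 1 : ℕ) : O⟦X⟧) * (B ^ j * d⁄dX O B))
        = (C (c (j + 1)) * ((j + 1 : ℕ) : O⟦X⟧)) * (B ^ j * d⁄dX O B) := by ring
      _ = _ := by rw [hr]; ring
  have key : ∀ k : ℕ, k ≤ n + 1 → (X : O⟦X⟧) ^ k ∣ G - E := by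
    intro k
    induction k with
    | zero => intro _; simp
    | succ k ih =>
      intro hk
      have ihk := ih (by omega)
      rw [X_pow_dvd_iff]
      intro m hm
      rcases Nat.lt_succ_iff_lt_or_eq.mp hm with hlt | rfl
      · exact X_pow_dvd_iff.mp ihk m hlt
      · -- coefficient `m = k`
        rcases Nat.eq_zero_or_pos m with rfl | hmpos
        · have : constantCoeff E = 1 := by
            rw [hE, map_sum, Finset.sum_range_succ']
            have : ∀ j ∈ Finset.range n, constantCoeff (C (c (j + 1)) * B ^ (j + 1)) = 0 := by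
              intro j _
              rw [map_mul, map_pow, hB, zero_pow (Nat.succ_ne_zero j), mul_zero]
            rw [Finset.sum_eq_zero this]
            simp [hc0 0 rfl]
          rw [coeff_zero_eq_constantCoeff_apply, map_sub, hG, this, sub_self]
        · obtain ⟨k', rfl⟩ : ∃ k', m = k' + 1 := ⟨m - 1, by omega⟩
          have hd : d⁄dX O (G - E) = C (p : O) * d⁄dX O B * (G - E)
              + C (p : O) * d⁄dX O B * (C (c n) * B ^ n) := by
            rw [map_sub, h, hdE]; ring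
          have hdiv : (X : O⟦X⟧) ^ (k' + 1) ∣ d⁄dX O (G - E) := by
            rw [hd]
            refine dvd_add (dvd_mul_of_dvd_right ihk _) ?_
            refine dvd_mul_of_dvd_right (dvd_mul_of_dvd_right ?_ _) _
            exact (pow_dvd_pow X (by omega : k' + 1 ≤ n)).trans (pow_dvd_pow_of_dvd hXB n)
          have hc' := X_pow_dvd_iff.mp hdiv k' (Nat.lt_succ_self k')
          rw [coeff_derivative] at hc'
          rcases mul_eq_zero.mp hc' with h0 | h0
          · exact h0
          · exfalso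
            have : ((k' + 1 : ℕ) : O) = 0 := by push_cast; exact h0
            exact Nat.succ_ne_zero k' (Nat.cast_eq_zero.mp this)
  have hcoeff : coeff n G = coeff n E := by
    have := X_pow_dvd_iff.mp (key (n + 1) le_rfl) n (Nat.lt_succ_self n)
    rw [map_sub, sub_eq_zero] at this
    exact this
  rw [hcoeff, hE, map_sum]
  refine Finset.dvd_sum fun j _ => ?_
  rcases Nat.eq_zero_or_pos j with rfl | hj
  · rw [pow_zero, mul_one, coeff_C, if_neg hn]
    exact dvd_zero _
  · rw [coeff_C_mul]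
    exact dvd_mul_of_dvd_left (hcp j hj.ne') _

end Deriv

section Torsion

variable {k : Type*} [Field k]

/-- Power series with constant term `1` over a field of characteristic `p` have no torsion. -/
theorem eq_one_of_pow_eq_one {p : ℕ} (hp : p.Prime) [CharP k p] (u : k⟦X⟧)
    (hu : constantCoeff u = 1) {n : ℕ} (hn : n ≠ 0) (h : u ^ n = 1) : u = 1 := by
  have : Fact p.Prime := ⟨hp⟩
  have : CharP k⟦X⟧ p := by
    refine (CharP.charP_iff_prime_eq_zero hp).mpr ?_
    rw [← map_natCast (C (R := k)), CharP.cast_eq_zero, map_zero]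
  obtain ⟨e, m, hm, rfl⟩ := Nat.exists_eq_pow_mul_and_not_dvd hn p hp.ne_one
  have h1 : u ^ p ^ e = 1 := by
    set w := u ^ p ^ e with hw
    have hwm : w ^ m = 1 := by rw [hw, ← pow_mul]; exact h
    have hgeom : (∑ i ∈ Finset.range m, w ^ i) * (w - 1) = 0 := by
      rw [geom_sum_mul, hwm, sub_self]
    rcases mul_eq_zero.mp hgeom with h0 | h0
    · exfalso
      have hc : constantCoeff (∑ i ∈ Finset.range m, w ^ i) = (m : k) := by
        rw [map_sum]
        have : ∀ i ∈ Finset.range m, constantCoeff (w ^ i) = (1 : k) := by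
          intro i _
          rw [map_pow, hw, map_pow, hu, one_pow, one_pow]
        rw [Finset.sum_congr rfl this]
        simp
      rw [h0, map_zero] at hc
      exact hm ((CharP.cast_eq_zero_iff k p m).mp hc.symm)
    · exact sub_eq_zero.mp h0
  have h2 : (u - 1) ^ p ^ e = 0 := by
    rw [sub_pow_char_pow, h1, one_pow, sub_self]
  exact sub_eq_zero.mp (pow_eq_zero_iff (pow_ne_zero e hp.ne_zero) |>.mp h2)

end Torsion

section Main

variable {O : Type*} [CommRing O]

/-- Logarithmic derivative of units of the power series ring, as a monoid homomorphism. -/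
noncomputable def dlog : (O⟦X⟧)ˣ →* Multiplicative (O⟦X⟧) where
  toFun u := Multiplicative.ofAdd (d⁄dX O (u : O⟦X⟧) * ((u⁻¹ : (O⟦X⟧)ˣ) : O⟦X⟧))
  map_one' := by simp
  map_mul' u v := by
    rw [← ofAdd_add]
    congr 1
    rw [Units.val_mul, Derivation.leibniz, mul_inv_rev, Units.val_mul]
    simp only [smul_eq_mul]
    have hu : (u : O⟦X⟧) * ((u⁻¹ : (O⟦X⟧)ˣ) : O⟦X⟧) = 1 := Units.mul_inv u
    have hv : (v : O⟦X⟧) * ((v⁻¹ : (O⟦X⟧)ˣ) : O⟦X⟧) = 1 := Units.mul_inv v
    calc ((u : O⟦X⟧) * d⁄dX O (v : O⟦X⟧) + (v : O⟦X⟧) * d⁄dX O (u : O⟦X⟧)) *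
          (((v⁻¹ : (O⟦X⟧)ˣ) : O⟦X⟧) * ((u⁻¹ : (O⟦X⟧)ˣ) : O⟦X⟧))
        = d⁄dX O (v : O⟦X⟧) * ((v⁻¹ : (O⟦X⟧)ˣ) : O⟦X⟧) *
            ((u : O⟦X⟧) * ((u⁻¹ : (O⟦X⟧)ˣ) : O⟦X⟧))
          + d⁄dX O (u : O⟦X⟧) * ((u⁻¹ : (O⟦X⟧)ˣ) : O⟦X⟧) *
            ((v : O⟦X⟧) * ((v⁻¹ : (O⟦X⟧)ˣ) : O⟦X⟧)) := by ring
      _ = _ := by rw [hu, hv, mul_one, mul_one, add_comm]

/-- The unit of `O⟦X⟧` attached to a power series with constant term `1`. -/
noncomputable def unitOf (J : O⟦X⟧) (h : constantCoeff J = 1) : (O⟦X⟧)ˣ where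
  val := J
  inv := invOfUnit J 1
  val_inv := mul_invOfUnit J 1 (by simpa using h)
  inv_val := invOfUnit_mul J 1 (by simpa using h)

theorem zpow_sum_eq {A : Type*} [CommGroup A] (V : A) {ι : Type*} (s : Finset ι) (m : ι → ℤ) :
    V ^ (∑ i ∈ s, m i) = ∏ i ∈ s, V ^ m i := by
  classical
  induction s using Finset.induction_on with
  | empty => simp
  | insert a t ha ih => rw [Finset.sum_insert ha, Finset.prod_insert ha, zpow_add, ih]

theorem isUnit_natCast_of_coprime [IsLocalRing O] {p : ℕ}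
    (hpm : (p : O) ∈ maximalIdeal O) (n : ℕ) (h : n.Coprime p) : IsUnit (n : O) := by
  by_contra hn
  have h1 : (n : O) ∈ maximalIdeal O := (mem_maximalIdeal _).mpr hn
  obtain ⟨a, b, hab⟩ := Nat.isCoprime_iff_coprime.mpr h
  have h2 : (a : O) * (n : O) + (b : O) * (p : O) = 1 := by exact_mod_cast congrArg (Int.cast (R := O)) hab
  have h3 : (1 : O) ∈ maximalIdeal O := by
    rw [← h2]
    exact Ideal.add_mem _ (Ideal.mul_mem_left _ _ h1) (Ideal.mul_mem_left _ _ hpm)
  exact (Ideal.ne_top_iff_one _).mp (maximalIdeal.isMaximal O).ne_top h3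

/-- **Exactness.** Power series `J i` with constant term `1`, all congruent to one series
`Jbar ≠ 1` modulo the maximal ideal, whose weighted logarithmic derivative has its `r`-th
coefficient divisible by `p (r + 1)` for all `r`: then the total weight is zero. -/
theorem sum_eq_zero_of_relations [IsDomain O] [CharZero O] [IsLocalRing O] {p : ℕ}
    (hp : p.Prime) (hpm : (p : O) ∈ maximalIdeal O) {ι : Type*} (s : Finset ι) (m : ι → ℤ)
    (J : ι → O⟦X⟧) (h1 : ∀ i, constantCoeff (J i) = 1)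
    (Jbar : (ResidueField O)⟦X⟧) (hne : Jbar ≠ 1)
    (hJ : ∀ i ∈ s, PowerSeries.map (residue O) (J i) = Jbar)
    (hrel : ∀ r : ℕ, ((p * (r + 1) : ℕ) : O) ∣
      coeff r (∑ i ∈ s, m i • (d⁄dX O (J i) * invOfUnit (J i) 1))) :
    ∑ i ∈ s, m i = 0 := by
  classical
  rcases s.eq_empty_or_nonempty with rfl | hs
  · simp
  have hu := isUnit_natCast_of_coprime (O := O) hpm
  set U : ι → (O⟦X⟧)ˣ := fun i => unitOf (J i) (h1 i) with hU
  set G : (O⟦X⟧)ˣ := ∏ i ∈ s, U i ^ m i with hGdef
  have hdlog : d⁄dX O (G : O⟦X⟧) * ((G⁻¹ : (O⟦X⟧)ˣ) : O⟦X⟧)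
      = ∑ i ∈ s, m i • (d⁄dX O (J i) * invOfUnit (J i) 1) := by
    have h := map_prod (dlog (O := O)) (fun i => U i ^ m i) s
    have h' := congrArg Multiplicative.toAdd h
    rw [toAdd_prod] at h'
    have hl : Multiplicative.toAdd (dlog (O := O) (∏ i ∈ s, U i ^ m i))
        = d⁄dX O (G : O⟦X⟧) * ((G⁻¹ : (O⟦X⟧)ˣ) : O⟦X⟧) := rfl
    rw [hl] at h'
    rw [h']
    refine Finset.sum_congr rfl fun i _ => ?_
    rw [map_zpow, toAdd_zpow]
    rfl
  choose b hb using hrel
  set B : O⟦X⟧ := PowerSeries.mk (fun n => if n = 0 then 0 else b (n - 1)) with hB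
  have hA : ∑ i ∈ s, m i • (d⁄dX O (J i) * invOfUnit (J i) 1) = C (p : O) * d⁄dX O B := by
    ext r
    rw [hb r, coeff_C_mul, coeff_derivative, hB, coeff_mk, if_neg (Nat.succ_ne_zero r)]
    push_cast
    ring
  have hG1 : constantCoeff (G : O⟦X⟧) = 1 := by
    have : Units.map (constantCoeff (R := O) : O⟦X⟧ →* O) G = 1 := by
      rw [hGdef, map_prod]
      refine Finset.prod_eq_one fun i _ => ?_
      rw [map_zpow]
      have : Units.map (constantCoeff (R := O) : O⟦X⟧ →* O) (U i) = 1 := by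
        ext
        exact h1 i
      rw [this, one_zpow]
    exact congrArg Units.val this
  have hB0 : constantCoeff B = 0 := by
    rw [← coeff_zero_eq_constantCoeff_apply, hB, coeff_mk, if_pos rfl]
  have hdG : d⁄dX O (G : O⟦X⟧) = C (p : O) * d⁄dX O B * (G : O⟦X⟧) := by
    rw [← hA, ← hdlog, mul_assoc, Units.inv_mul, mul_one]
  have hdvd : ∀ n : ℕ, n ≠ 0 → (p : O) ∣ coeff n (G : O⟦X⟧) := fun n hn =>
    dvd_coeff_of_deriv hp hu _ B hG1 hB0 hdG hn
  -- reduce modulo the maximal ideal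
  have hchar : CharP (ResidueField O) p := by
    refine (CharP.charP_iff_prime_eq_zero hp).mpr ?_
    rw [← map_natCast (residue O)]
    exact (residue_eq_zero_iff _).mpr hpm
  have hmapG : PowerSeries.map (residue O) (G : O⟦X⟧) = 1 := by
    ext n
    rw [coeff_map, coeff_one]
    rcases eq_or_ne n 0 with rfl | hn
    · rw [coeff_zero_eq_constantCoeff_apply, hG1, if_pos rfl, map_one]
    · rw [if_neg hn]
      obtain ⟨c, hc⟩ := hdvd n hn
      rw [hc, map_mul]
      have : residue O (p : O) = 0 := (residue_eq_zero_iff _).mpr hpm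
      rw [this, zero_mul]
  obtain ⟨i0, hi0⟩ := hs
  set V : ((ResidueField O)⟦X⟧)ˣ :=
    Units.map (PowerSeries.map (residue O) : O⟦X⟧ →* (ResidueField O)⟦X⟧) (U i0) with hV
  have hVval : (V : (ResidueField O)⟦X⟧) = Jbar := hJ i0 hi0
  have hVpow : V ^ (∑ i ∈ s, m i) = 1 := by
    have h : Units.map (PowerSeries.map (residue O) : O⟦X⟧ →* (ResidueField O)⟦X⟧) G = 1 := by
      ext1
      exact hmapG
    rw [hGdef, map_prod] at h
    have h' : ∀ i ∈ s, Units.map (PowerSeries.map (residue O) : O⟦X⟧ →* (ResidueField O)⟦X⟧)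
        (U i ^ m i) = V ^ m i := by
      intro i hi
      rw [map_zpow]
      congr 1
      ext1
      rw [hVval]
      exact hJ i hi
    rw [Finset.prod_congr rfl h'] at h
    rw [← h]
    exact zpow_sum_eq V s m
  by_contra hκ
  have hnat : V ^ (∑ i ∈ s, m i).natAbs = 1 := by
    rcases Int.natAbs_eq (∑ i ∈ s, m i) with h | h
    · rw [h, zpow_natCast] at hVpow
      exact hVpow
    · rw [h, zpow_neg, zpow_natCast, inv_eq_one] at hVpow
      exact hVpow
  have hnat' : Jbar ^ (∑ i ∈ s, m i).natAbs = 1 := by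
    rw [← hVval, ← Units.val_pow_eq_pow_val, hnat, Units.val_one]
  have hc : constantCoeff Jbar = 1 := by
    rw [← hJ i0 hi0, ← coeff_zero_eq_constantCoeff_apply, coeff_map,
      coeff_zero_eq_constantCoeff_apply, h1, map_one]
  exact hne (eq_one_of_pow_eq_one hp Jbar hc (Int.natAbs_ne_zero.mpr hκ) hnat')

end Main

end P179H342
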