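import Vale.Agent.P179.Rel.Defs

/-!
# MODULE GRPDR: the semidirect product, relative version
-/

namespace P179H342

open Vale.P179.Allb Vale.P179.Sgn Vale.P179

/-- MODULE S4AR1 in the frozen letters. -/
theorem s4ar1_rel : Vale.P179.Rel.S4AR1 := s4ar1

theorem grpdr : Vale.P179.Rel.GRPDR := by
  intro p _ D _ _ τ e _ D1 D2 hτ
  have he0 : e ≠ 0 := NeZero.ne e
  -- the order of `τ`
  obtain ⟨⟨d1, hd0m⟩, hd0'⟩ := (Subgroup.ne_bot_iff_exists_ne_one (H := D1)).mp hτ.ne
  have hd0 : d1 ≠ 1 := fun h => hd0' (Subtype.ext h)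
  have hord : orderOf τ = e := by
    refine Nat.dvd_antisymm (orderOf_dvd_of_pow_eq_one hτ.pow) ?_
    refine hτ.free1 _ d1 hd0m hd0 ?_
    rw [pow_orderOf_eq_one]; rfl
  have hfin : IsOfFinOrder τ := isOfFinOrder_iff_pow_eq_one.2 ⟨e, Nat.pos_of_ne_zero he0, hτ.pow⟩
  have hZf : Finite (Subgroup.zpowers τ) := hfin.finite_zpowers
  let φ : Subgroup.zpowers τ →* MulAut D := (Subgroup.zpowers τ).subtype
  let t : Subgroup.zpowers τ := ⟨τ, Subgroup.mem_zpowers τ⟩
  have hcardZ : Nat.card (Subgroup.zpowers τ) = e := by rw [Nat.card_zpowers, hord]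
  have hGf : Finite (D ⋊[φ] Subgroup.zpowers τ) := Finite.of_equiv _ SemidirectProduct.equivProd.symm
  have hcard : Nat.card (D ⋊[φ] Subgroup.zpowers τ) = Nat.card D * e := by
    rw [Nat.card_congr SemidirectProduct.equivProd, Nat.card_prod, hcardZ]
  let i : D →* D ⋊[φ] Subgroup.zpowers τ := SemidirectProduct.inl
  let g : D ⋊[φ] Subgroup.zpowers τ := SemidirectProduct.inr t
  have hti : ∀ m : ℕ, t ^ m = ⟨τ ^ m, Subgroup.npow_mem_zpowers τ m⟩ := by
    intro m; ext1; simp [t]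
  have hgm : ∀ (m : ℕ) (x : D), g ^ m * i x = i ((τ ^ m) x) * g ^ m := by
    intro m x
    have h1 : g ^ m = SemidirectProduct.inr (t ^ m) := by rw [map_pow]
    rw [h1]
    have h2 := SemidirectProduct.inl_aut (φ := φ) (t ^ m) x
    have h3 : φ (t ^ m) x = (τ ^ m) x := by
      rw [hti]; rfl
    rw [h3] at h2
    rw [show i ((τ ^ m) x) = SemidirectProduct.inl ((τ ^ m) x) from rfl, h2, map_inv,
      inv_mul_cancel_right]
  have hinj : Function.Injective i := SemidirectProduct.inl_injective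
  have hpow : g ^ e = 1 := by
    rw [show g ^ e = SemidirectProduct.inr (t ^ e) by rw [map_pow], hti]
    have : (⟨τ ^ e, Subgroup.npow_mem_zpowers τ e⟩ : Subgroup.zpowers τ) = 1 := by
      ext1; exact hτ.pow
    rw [this, map_one]
  have hgen : ∀ γ, ∃ (x : D) (s : ℕ), γ = i x * g ^ s := by
    intro γ
    obtain ⟨s, hs⟩ : (γ.right : MulAut D) ∈ Submonoid.powers τ :=
      hfin.mem_powers_iff_mem_zpowers.2 γ.right.2
    refine ⟨γ.left, s, ?_⟩
    have h1 : γ.right = t ^ s := by rw [hti]; ext1; exact hs.symm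
    have h2 := SemidirectProduct.inl_left_mul_inr_right γ
    rw [h1, map_pow] at h2
    exact h2.symm
  have hordg : orderOf g = e := by
    refine Nat.dvd_antisymm (orderOf_dvd_of_pow_eq_one hpow) ?_
    refine hτ.free1 _ d1 hd0m hd0 ?_
    have h1 := hgm (orderOf g) d1
    rw [pow_orderOf_eq_one, one_mul, mul_one] at h1
    exact (hinj h1).symm
  have hstab : ∀ (X : Subgroup D), (∀ x ∈ X, τ x ∈ X) → ∀ (s : ℕ), ∀ x ∈ X, (τ ^ s) x ∈ X := by
    intro X hX s
    induction s with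
    | zero => intro x hx; simpa using hx
    | succ s ih =>
      intro x hx
      rw [pow_succ', MulAut.mul_apply]
      exact hX _ (ih x hx)
  have hnorm : ∀ (X : Subgroup D), (∀ x ∈ X, τ x ∈ X) → (X.map i).Normal := by
    intro X hX
    refine ⟨?_⟩
    rintro _ ⟨x, hx, rfl⟩ γ
    obtain ⟨y, s, rfl⟩ := hgen γ
    refine ⟨(τ ^ s) x, hstab X hX s x hx, ?_⟩
    rw [mul_inv_rev, mul_assoc (i y), hgm s x]
    rw [show i y * (i ((τ ^ s) x) * g ^ s) * ((g ^ s)⁻¹ * (i y)⁻¹)
      = i y * i ((τ ^ s) x) * (i y)⁻¹ by group]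
    rw [← map_mul, ← map_inv, ← map_mul, mul_comm y, mul_inv_cancel_right]
  have hpg : ∀ X : Subgroup D, IsPGroup p (X.map i) := by
    intro X
    exact (hτ.pgr.to_subgroup X).map i
  have hsup : D1.map i ⊔ D2.map i = i.range := by
    rw [← Subgroup.map_sup, hτ.sup, MonoidHom.range_eq_map]
  refine ⟨D ⋊[φ] Subgroup.zpowers τ, inferInstance, Fintype.ofFinite _, i, g,
    ⟨hinj, fun x => by simpa using hgm 1 x, hpow, hgen, hcard⟩, ?_⟩
  refine ⟨hnorm D1 hτ.s1, hnorm D2 hτ.s2, hpg D1, hpg D2, ?_, ?_, ?_, hordg, ?_, ?_⟩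
  · rw [hsup]
    rintro _ ⟨x, rfl⟩ _ ⟨y, rfl⟩
    rw [← map_mul, mul_comm, map_mul]
  · rw [← Subgroup.map_inf_eq _ _ _ hinj, hτ.dis, Subgroup.map_bot]
  · intro h
    apply hd0
    have h1 : i d1 ∈ (⊥ : Subgroup (D ⋊[φ] Subgroup.zpowers τ)) := by
      rw [← h]; exact ⟨d1, hd0m, rfl⟩
    rw [Subgroup.mem_bot] at h1
    exact hinj (by rw [h1, map_one])
  · rw [hsup]
    refine Subgroup.isComplement'_of_card_mul_and_disjoint ?_ ?_
    · rw [Nat.card_zpowers, hordg, hcard]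
      congr 1
      exact Nat.card_congr (MonoidHom.ofInjective hinj).symm.toEquiv
    · rw [Subgroup.disjoint_def]
      rintro _ ⟨x, rfl⟩ hx
      obtain ⟨m, hm⟩ := hx
      have h1 : SemidirectProduct.rightHom (i x) = (1 : Subgroup.zpowers τ) :=
        SemidirectProduct.rightHom_inl x
      have h2 : SemidirectProduct.rightHom (g ^ m) = t ^ m := by
        rw [map_zpow]; rfl
      have h3 : t ^ m = 1 := by
        rw [← h2, ← h1]
        exact congrArg _ hm
      have h4 : g ^ m = 1 := by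
        rw [show g ^ m = SemidirectProduct.inr (t ^ m) by rw [map_zpow], h3, map_one]
      exact hm.symm.trans h4
  · rintro m _ ⟨x, hx1, rfl⟩ hx h
    refine hτ.free1 m x hx1 (fun h0 => hx (by rw [h0, map_one])) ?_
    rw [hgm m x] at h
    exact hinj (mul_right_cancel h)

end P179H342
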