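import Mathlib

/-!
# Integrality of the cluster generating series (module (C1) of the P179 plan)

`factorial_dvd`: if `D` is killed by `p`, `b : T → T → O` has vanishing column sums, then `n!`
divides `∑_{f : Fin n → T, ∑ u (f k) = d} ∏_k ∑_j b (f k) (f j)` in `O`.
-/

open MvPolynomial Finset

namespace P179H342

section PD

variable {R : Type*} [CommRing R]

theorem sub_one_pow_prime {p : ℕ} (hp : p.Prime) (g : R) (hg : g ^ p = 1) :
    ∃ k, (g - 1) ^ p = p * (g - 1) * k := by
  obtain ⟨r, hr⟩ := exists_add_pow_prime_eq hp (g - 1) 1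
  refine ⟨-r, ?_⟩
  rw [sub_add_cancel, hg, one_pow] at hr
  linear_combination -hr

theorem pow_dvd_sub_one_pow {p : ℕ} (hp : p.Prime) (g : R) (hg : g ^ p = 1) (j : ℕ) :
    (p : R) ^ j ∣ (g - 1) ^ (1 + j * (p - 1)) := by
  obtain ⟨k, hk⟩ := sub_one_pow_prime hp g hg
  induction j with
  | zero => simp
  | succ j ih =>
    have h1 : 1 + (j + 1) * (p - 1) = j * (p - 1) + p := by
      have := hp.one_le
      rw [add_mul, one_mul]
      omega
    have h2 : (g - 1) ^ (1 + (j + 1) * (p - 1)) =
        (p : R) * ((g - 1) ^ (1 + j * (p - 1)) * k) := by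
      rw [h1, pow_add, hk, pow_add, pow_one]
      ring
    rw [h2, pow_succ']
    exact mul_dvd_mul_left _ (dvd_mul_of_dvd_left ih _)

/-- Divided powers of `g - 1` when `g ^ p = 1`. -/
theorem factorial_dvd_sub_one_pow {p : ℕ} (hp : p.Prime)
    (hu : ∀ n : ℕ, n.Coprime p → IsUnit (n : R)) (g : R) (hg : g ^ p = 1) (m : ℕ) :
    ((m.factorial : ℕ) : R) ∣ (g - 1) ^ m := by
  rcases Nat.eq_zero_or_pos m with rfl | hm
  · simp
  have : Fact p.Prime := ⟨hp⟩
  set v := m.factorial.factorization p with hv
  have hlt : (p - 1) * v < m := by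
    have h1 := sub_one_mul_padicValNat_factorial_lt_of_ne_zero (p := p) hm.ne'
    have h2 : v = padicValNat p m.factorial := Nat.factorization_def _ hp
    rw [h2]; exact h1
  have hcop : (m.factorial / p ^ v).Coprime p :=
    (Nat.coprime_ordCompl hp (Nat.factorial_ne_zero m)).symm
  have hfac : (m.factorial : R) = (p : R) ^ v * ((m.factorial / p ^ v : ℕ) : R) := by
    rw [← Nat.cast_pow, ← Nat.cast_mul, hv, Nat.ordProj_mul_ordCompl_eq_self]
  rw [hfac, (hu _ hcop).mul_right_dvd]
  refine (pow_dvd_sub_one_pow hp g hg v).trans (pow_dvd_pow _ ?_)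
  rw [mul_comm] at hlt
  omega

end PD

section Main

variable {O K : Type*} [CommRing O] [Field K] (ι : O →+* K) (T : Type*)

/-- The subring generated by the variables and the divided powers of `X s - 1`. -/
noncomputable def PDRing : Subring (MvPolynomial T K) :=
  Subring.closure ({x | ∃ a : O, x = C (ι a)} ∪ {x | ∃ s, x = X s} ∪
    {x | ∃ s, ∃ m : ℕ, x = C ((m.factorial : K)⁻¹) * (X s - 1) ^ m})

variable {T}

theorem C_mem (a : O) : (C (ι a) : MvPolynomial T K) ∈ PDRing ι T :=
  Subring.subset_closure (Or.inl (Or.inl ⟨a, rfl⟩))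

theorem X_mem (s : T) : (X s : MvPolynomial T K) ∈ PDRing ι T :=
  Subring.subset_closure (Or.inl (Or.inr ⟨s, rfl⟩))

theorem PD_mem (s : T) (m : ℕ) :
    (C ((m.factorial : K)⁻¹) * (X s - 1) ^ m : MvPolynomial T K) ∈ PDRing ι T :=
  Subring.subset_closure (Or.inr ⟨s, m, rfl⟩)

/-- The Euler type derivation `∑ c_s X_s ∂_s`. -/
noncomputable def euler (c : T → K) : Derivation K (MvPolynomial T K) (MvPolynomial T K) :=
  mkDerivation K (fun s => C (c s) * X s)

theorem euler_mem [CharZero K] (c : T → K) (hc : ∀ s, ∃ a : O, c s = ι a)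
    {f : MvPolynomial T K} (hf : f ∈ PDRing ι T) : euler c f ∈ PDRing ι T := by
  refine Subring.closure_induction (p := fun x _ => euler c x ∈ PDRing ι T)
    ?_ ?_ ?_ ?_ ?_ ?_ hf
  · rintro x ((⟨a, rfl⟩ | ⟨s, rfl⟩) | ⟨s, m, rfl⟩)
    · rw [derivation_C]; exact Subring.zero_mem _
    · rw [euler, mkDerivation_X]
      obtain ⟨a, ha⟩ := hc s
      rw [ha]
      exact Subring.mul_mem _ (C_mem ι a) (X_mem ι s)
    · rcases m with _ | m
      · have : euler c (C (((0 : ℕ).factorial : K)⁻¹) * (X s - 1) ^ 0) = 0 := by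
          rw [pow_zero, mul_one, derivation_C]
        rw [this]; exact Subring.zero_mem _
      · obtain ⟨a, ha⟩ := hc s
        have : euler c (C (((m + 1).factorial : K)⁻¹) * (X s - 1) ^ (m + 1)) =
            C ((m.factorial : K)⁻¹) * (X s - 1) ^ m * (C (ι a) * X s) := by
          rw [C_mul', Derivation.map_smul, Derivation.leibniz_pow, map_sub,
            Derivation.map_one_eq_zero, sub_zero, euler, mkDerivation_X, ha, Nat.add_sub_cancel]
          have hfac : (((m + 1).factorial : K)⁻¹) * ((m + 1 : ℕ) : K) = (m.factorial : K)⁻¹ := by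
            rw [Nat.factorial_succ, Nat.cast_mul, mul_inv, mul_comm, ← mul_assoc,
              mul_inv_cancel₀ (by exact_mod_cast Nat.succ_ne_zero m), one_mul]
          rw [← hfac, map_mul, smul_eq_mul, smul_eq_C_mul, nsmul_eq_mul, map_natCast]
          ring
        rw [this]
        exact Subring.mul_mem _ (PD_mem ι s m) (Subring.mul_mem _ (C_mem ι a) (X_mem ι s))
  · rw [map_zero]; exact Subring.zero_mem _
  · rw [Derivation.map_one_eq_zero]; exact Subring.zero_mem _
  · intro x y _ _ hx hy
    rw [map_add]; exact Subring.add_mem _ hx hy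
  · intro x _ hx
    rw [map_neg]; exact Subring.neg_mem _ hx
  · intro x y hx' hy' hx hy
    rw [Derivation.leibniz, smul_eq_mul, smul_eq_mul]
    exact Subring.add_mem _ (Subring.mul_mem _ hx' hy) (Subring.mul_mem _ hy' hx)

/-- The eigenvalue of `euler c` on the monomial `w`. -/
noncomputable def eig (c : T → K) (w : T →₀ ℕ) : K := w.sum fun s k => c s * (k : K)

theorem coeff_euler (c : T → K) (f : MvPolynomial T K) (w : T →₀ ℕ) :
    coeff w (euler c f) = eig c w * coeff w f := by
  induction f using MvPolynomial.induction_on' with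
  | monomial u a =>
    rw [euler, mkDerivation_monomial]
    have h : (u.sum fun i k => monomial (u - Finsupp.single i 1) (k : K) •
        (C (c i) * X i : MvPolynomial T K)) = monomial u (eig c u) := by
      rw [eig, Finsupp.sum, Finsupp.sum, map_sum]
      refine Finset.sum_congr rfl fun i hi => ?_
      rw [smul_eq_mul, X, C_mul_monomial, mul_one, monomial_mul, mul_comm (c i)]
      have : Finsupp.single i 1 ≤ u := by
        rw [Finsupp.single_le_iff]
        exact Nat.one_le_iff_ne_zero.mpr (Finsupp.mem_support_iff.mp hi)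
      rw [tsub_add_cancel_of_le this]
    classical
    rw [h, coeff_smul, coeff_monomial, coeff_monomial]
    by_cases huw : u = w
    · subst huw; simp [mul_comm]
    · simp [huw]
  | add f g hf hg => rw [map_add, coeff_add, hf, hg, coeff_add, mul_add]

/-- Diagonal multiplier. -/
noncomputable def mult (φ : (T →₀ ℕ) → K) (f : MvPolynomial T K) : MvPolynomial T K :=
  ∑ w ∈ f.support, monomial w (φ w * coeff w f)

theorem coeff_mult (φ : (T →₀ ℕ) → K) (f : MvPolynomial T K) (w : T →₀ ℕ) :
    coeff w (mult φ f) = φ w * coeff w f := by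
  classical
  rw [mult, coeff_sum]
  simp only [coeff_monomial]
  rw [Finset.sum_ite_eq' f.support w]
  by_cases h : w ∈ f.support
  · rw [if_pos h]
  · rw [if_neg h, notMem_support_iff.mp h, mul_zero]

theorem mult_eig_mem [CharZero K] (c : T → K) (hc : ∀ s, ∃ a : O, c s = ι a)
    {f : MvPolynomial T K} (hf : f ∈ PDRing ι T) : mult (eig c) f ∈ PDRing ι T := by
  have : mult (eig c) f = euler c f := by
    ext w; rw [coeff_mult, coeff_euler]
  rw [this]; exact euler_mem ι c hc hf

theorem mult_mul (φ ψ : (T →₀ ℕ) → K) (f : MvPolynomial T K) :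
    mult (φ * ψ) f = mult φ (mult ψ f) := by
  ext w; simp only [coeff_mult, Pi.mul_apply, mul_assoc]

theorem mult_one (f : MvPolynomial T K) : mult (1 : (T →₀ ℕ) → K) f = f := by
  ext w; simp [coeff_mult]

theorem mult_pow_mem (φ : (T →₀ ℕ) → K)
    (h : ∀ f ∈ PDRing ι T, mult φ f ∈ PDRing ι T) (n : ℕ) :
    ∀ f ∈ PDRing ι T, mult (φ ^ n) f ∈ PDRing ι T := by
  induction n with
  | zero => intro f hf; rw [pow_zero, mult_one]; exact hf
  | succ n ih => intro f hf; rw [pow_succ, mult_mul]; exact ih _ (h f hf)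

theorem mult_prod_mem {α : Type*} (s : Finset α) (φ : α → (T →₀ ℕ) → K)
    (h : ∀ a, ∀ f ∈ PDRing ι T, mult (φ a) f ∈ PDRing ι T) :
    ∀ f ∈ PDRing ι T, mult (∏ a ∈ s, φ a) f ∈ PDRing ι T := by
  classical
  induction s using Finset.induction_on with
  | empty => intro f hf; rw [Finset.prod_empty, mult_one]; exact hf
  | insert a s ha ih => intro f hf; rw [Finset.prod_insert ha, mult_mul]; exact h a _ (ih f hf)

theorem eig_content {n : ℕ} (c : T → K) (f : Fin n → T) :
    eig c (∑ k, Finsupp.single (f k) 1) = ∑ j, c (f j) := by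
  rw [eig, ← Finsupp.sum_finsetSum_index]
  · refine Finset.sum_congr rfl fun j _ => ?_
    rw [Finsupp.sum_single_index] <;> simp
  · simp
  · intro a b₁ b₂; push_cast; ring

theorem prod_X_content {n : ℕ} (f : Fin n → T) :
    (∏ k, X (f k) : MvPolynomial T K) = monomial (∑ k, Finsupp.single (f k) 1) 1 := by
  have : ∀ s : Finset (Fin n), (∏ k ∈ s, X (f k) : MvPolynomial T K) =
      monomial (∑ k ∈ s, Finsupp.single (f k) 1) 1 := by
    intro s
    induction s using Finset.induction_on with
    | empty => simp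
    | insert a s ha ih =>
      rw [Finset.prod_insert ha, Finset.sum_insert ha, ih, X, monomial_mul, one_mul]
  exact this Finset.univ

variable [Fintype T] [DecidableEq T]

/-- The divided power form of the cluster sum. -/
noncomputable def FF (b : T → T → O) (n : ℕ) : MvPolynomial T K :=
  ∑ m ∈ piAntidiag (univ : Finset T) n,
    mult (∏ t, eig (fun s => ι (b t s)) ^ m t)
      (∏ t, (C (((m t).factorial : K)⁻¹) * (X t - 1) ^ m t))

/-- The cluster sum. -/
noncomputable def GG (b : T → T → O) (n : ℕ) : MvPolynomial T K :=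
  ∑ f : Fin n → T, C (∏ k, ∑ j, ι (b (f k) (f j))) * ∏ k, X (f k)

theorem FF_mem [CharZero K] (b : T → T → O) (n : ℕ) : FF ι b n ∈ PDRing ι T := by
  refine Subring.sum_mem _ fun m _ => ?_
  refine mult_prod_mem ι univ _ (fun t => ?_) _ (Subring.prod_mem _ fun t _ => PD_mem ι t (m t))
  exact mult_pow_mem ι _ (fun f hf => mult_eig_mem ι _ (fun s => ⟨b t s, rfl⟩) hf) _

theorem coeff_GG (b : T → T → O) (n : ℕ) (w : T →₀ ℕ) :
    coeff w (GG ι b n) = coeff w ((∑ t, C (eig (fun s => ι (b t s)) w) * X t) ^ n) := by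
  classical
  rw [Fintype.sum_pow, GG, coeff_sum, coeff_sum]
  refine Finset.sum_congr rfl fun f _ => ?_
  rw [Finset.prod_mul_distrib, ← map_prod, prod_X_content, C_mul_monomial, C_mul_monomial,
    coeff_monomial, coeff_monomial]
  by_cases h : (∑ k, Finsupp.single (f k) 1) = w
  · rw [if_pos h, if_pos h, mul_one, mul_one]
    refine Finset.prod_congr rfl fun k _ => ?_
    rw [← h, eig_content]
  · rw [if_neg h, if_neg h]

theorem coeff_FF [CharZero K] (b : T → T → O) (n : ℕ) (w : T →₀ ℕ) :
    (n.factorial : K) * coeff w (FF ι b n) =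
      coeff w ((∑ t, C (eig (fun s => ι (b t s)) w) * (X t - 1)) ^ n) := by
  rw [Finset.sum_pow_eq_sum_piAntidiag, FF, coeff_sum, coeff_sum, Finset.mul_sum]
  refine Finset.sum_congr rfl fun m hm => ?_
  have hsum : ∑ t, m t = n := (mem_piAntidiag.mp hm).1
  rw [coeff_mult, Finset.prod_apply]
  simp only [Pi.pow_apply]
  have hmul : (Nat.multinomial univ m : MvPolynomial T K) *
      ∏ t, (C (eig (fun s => ι (b t s)) w) * (X t - 1)) ^ m t =
      C ((n.factorial : K) * ∏ t, eig (fun s => ι (b t s)) w ^ m t) *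
        ∏ t, (C (((m t).factorial : K)⁻¹) * (X t - 1) ^ m t) := by
    have hspec := Nat.multinomial_spec univ m
    rw [hsum] at hspec
    have hK : (n.factorial : K) = (∏ t, ((m t).factorial : K)) * (Nat.multinomial univ m : K) := by
      rw [← hspec]; push_cast; rfl
    rw [Finset.prod_mul_distrib, ← map_prod C, Finset.prod_inv_distrib, ← mul_assoc, ← map_mul]
    have hne : (∏ t, ((m t).factorial : K)) ≠ 0 :=
      Finset.prod_ne_zero_iff.mpr fun t _ => by exact_mod_cast Nat.factorial_ne_zero _
    have hc : (n.factorial : K) * (∏ t, eig (fun s => ι (b t s)) w ^ m t) *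
        (∏ t, ((m t).factorial : K))⁻¹ =
        (Nat.multinomial univ m : K) * ∏ t, eig (fun s => ι (b t s)) w ^ m t := by
      rw [hK]
      field_simp
    rw [hc]
    simp only [mul_pow]
    rw [Finset.prod_mul_distrib, map_mul, map_natCast, map_prod]
    simp only [map_pow]
    ring
  rw [hmul, coeff_C_mul]
  ring

theorem factorial_smul_FF [CharZero K] (b : T → T → O) (hb : ∀ s, ∑ t, b t s = 0) (n : ℕ) :
    C (n.factorial : K) * FF ι b n = GG ι b n := by
  ext w
  rw [coeff_C_mul, coeff_FF, coeff_GG]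
  congr 2
  have h0 : ∑ t, eig (fun s => ι (b t s)) w = 0 := by
    simp only [eig, Finsupp.sum]
    rw [Finset.sum_comm]
    refine Finset.sum_eq_zero fun s _ => ?_
    rw [← Finset.sum_mul, ← map_sum, hb, map_zero, zero_mul]
  simp only [mul_sub, mul_one]
  rw [Finset.sum_sub_distrib, ← map_sum, h0, map_zero, sub_zero]

variable {D : Type*} [AddCommGroup D]

open AddMonoidAlgebra in
/-- **Integrality of the cluster sums.** -/
theorem factorial_dvd_aux [CharZero K] (hι : Function.Injective ι) {p : ℕ} (hp : p.Prime)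
    (hu : ∀ n : ℕ, n.Coprime p → IsUnit (n : O))
    (b : T → T → O) (hb : ∀ s, ∑ t, b t s = 0)
    (u : T → D) (hD : ∀ d : D, p • d = 0) [DecidableEq D] (n : ℕ) (d : D) :
    (n.factorial : O) ∣
      ∑ f ∈ (univ : Finset (Fin n → T)).filter (fun f => ∑ k, u (f k) = d),
        ∏ k, ∑ j, b (f k) (f j) := by
  classical
  set ev : MvPolynomial T K →+* AddMonoidAlgebra K D :=
    eval₂Hom (algebraMap K (AddMonoidAlgebra K D)) (fun s => (single (u s) 1)) with hev
  have hevX : ∀ s, ev (X s) = single (u s) 1 := fun s => by rw [hev]; simp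
  have hevC : ∀ a : K, ev (C a) = single 0 a := fun a => by rw [hev]; simp
  have hle : PDRing ι T ≤ Subring.comap ev (mapRingHom D ι).range := by
    refine Subring.closure_le.mpr ?_
    rintro x ((⟨a, rfl⟩ | ⟨s, rfl⟩) | ⟨s, m, rfl⟩)
    · exact ⟨single 0 a, by rw [hevC]; simp⟩
    · exact ⟨single (u s) 1, by rw [hevX]; simp⟩
    · have hu' : ∀ n : ℕ, n.Coprime p → IsUnit (n : AddMonoidAlgebra O D) := by
        intro n hn
        have := (hu n hn).map (algebraMap O (AddMonoidAlgebra O D))
        rwa [map_natCast] at this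
      obtain ⟨z, hz⟩ := factorial_dvd_sub_one_pow hp hu'
        (single (u s) 1 : AddMonoidAlgebra O D) (by rw [single_pow, hD, one_pow]; rfl) m
      refine ⟨z, ?_⟩
      have h1 : ev (C ((m.factorial : K)⁻¹) * (X s - 1) ^ m) =
          single 0 ((m.factorial : K)⁻¹) * (single (u s) 1 - 1) ^ m := by
        rw [map_mul, hevC, map_pow, map_sub, hevX, map_one]
      have h2 := congrArg (mapRingHom D ι) hz
      rw [map_pow, map_sub, map_one, map_mul, map_natCast, mapRingHom_single, map_one] at h2
      change mapRingHom D ι z = ev (C ((m.factorial : K)⁻¹) * (X s - 1) ^ m)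
      rw [h1, h2, ← mul_assoc]
      have h3 : (single 0 ((m.factorial : K)⁻¹) : AddMonoidAlgebra K D) *
          ((m.factorial : ℕ) : AddMonoidAlgebra K D) = 1 := by
        have : ((m.factorial : ℕ) : AddMonoidAlgebra K D) = single 0 (m.factorial : K) := by
          rw [← hevC, map_natCast, map_natCast]
        rw [this, single_mul_single, inv_mul_cancel₀ (by exact_mod_cast Nat.factorial_ne_zero m),
          add_zero]
        rfl
      rw [h3, one_mul]
  obtain ⟨z, hz⟩ := hle (FF_mem ι b n)
  have hmain := congrArg (fun x => (ev x).coeff d) (factorial_smul_FF ι b hb n)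
  refine ⟨z.coeff d, hι ?_⟩
  have hprod : ∀ (f : Fin n → T) (s : Finset (Fin n)),
      (∏ k ∈ s, (single (u (f k)) 1 : AddMonoidAlgebra K D)) = single (∑ k ∈ s, u (f k)) 1 := by
    intro f s
    induction s using Finset.induction_on with
    | empty => simp; rfl
    | insert a s ha ih =>
      rw [Finset.prod_insert ha, Finset.sum_insert ha, ih, single_mul_single, one_mul]
  have hGG : ev (GG ι b n) = ∑ f : Fin n → T, single (∑ k, u (f k))
      (∏ k, ∑ j, ι (b (f k) (f j))) := by
    rw [GG, map_sum]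
    refine Finset.sum_congr rfl fun f _ => ?_
    rw [map_mul, hevC, map_prod]
    simp only [hevX]
    rw [hprod, single_mul_single, zero_add, mul_one]
  simp only [map_mul] at hmain
  rw [hevC, hGG, ← hz, coeff_single_zero_mul, coeff_mapRingHom,
    AddMonoidAlgebra.coeff_sum, Finsupp.finsetSum_apply] at hmain
  rw [map_mul, map_natCast, hmain, map_sum, Finset.sum_filter]
  refine Finset.sum_congr rfl fun f _ => ?_
  rw [coeff_single, Finsupp.single_apply]
  by_cases h : ∑ k, u (f k) = d
  · rw [if_pos h, if_pos h, map_prod]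
    simp only [map_sum]
  · rw [if_neg h, if_neg h]

end Main

/-- **Integrality of the cluster sums** (module (C1)). -/
theorem factorial_dvd {O : Type*} [CommRing O] [IsDomain O] [CharZero O] {p : ℕ} (hp : p.Prime)
    (hu : ∀ n : ℕ, n.Coprime p → IsUnit (n : O)) {T : Type*} [Fintype T] [DecidableEq T]
    (b : T → T → O) (hb : ∀ s, ∑ t, b t s = 0)
    {D : Type*} [AddCommGroup D] [DecidableEq D] (u : T → D) (hD : ∀ d : D, p • d = 0)
    (n : ℕ) (d : D) :
    (n.factorial : O) ∣
      ∑ f ∈ (univ : Finset (Fin n → T)).filter (fun f => ∑ k, u (f k) = d),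
        ∏ k, ∑ j, b (f k) (f j) :=
  have : CharZero (FractionRing O) :=
    charZero_of_injective_algebraMap (IsFractionRing.injective O (FractionRing O))
  factorial_dvd_aux (algebraMap O (FractionRing O)) (IsFractionRing.injective O _)
    hp hu b hb u hD n d

end P179H342
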