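import Mathlib

/-!
# Gradings from a basis; the structure `KDat` (the graded group algebra of `D : T`)
-/

namespace P179H342

open Module

section BasisGrading

variable {k V Y Δ : Type*} [Field k] [AddCommGroup V] [Module k V]

/-- the span of the basis members of degree `r` -/
def grd (b : Y → V) (d : Y → Δ) (r : Δ) (k : Type*) [Field k] [Module k V] : Submodule k V :=
  Submodule.span k (b '' {y | d y = r})

theorem mem_grd (b : Basis Y k V) (d : Y → Δ) (r : Δ) (v : V) :
    v ∈ grd b d r k ↔ ∀ y, b.repr v y ≠ 0 → d y = r := by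
  unfold grd
  rw [b.mem_span_image]
  constructor
  · intro h y hy
    exact h (Finsupp.mem_support_iff.mpr hy)
  · intro h y hy
    exact h y (Finsupp.mem_support_iff.mp hy)

theorem isInternal_grd [DecidableEq Δ] (b : Basis Y k V) (d : Y → Δ) :
    DirectSum.IsInternal fun r => grd b d r k := by
  rw [DirectSum.isInternal_submodule_iff_iSupIndep_and_iSup_eq_top]
  constructor
  · intro r
    refine Disjoint.mono_right ?_
      (b.linearIndependent.disjoint_span_image (s := {y | d y = r}) (t := {y | d y ≠ r}) ?_)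
    · refine iSup_le fun j => iSup_le fun hj => ?_
      apply Submodule.span_mono
      apply Set.image_mono
      intro y hy
      show d y ≠ r
      rw [show d y = j from hy]
      exact hj
    · rw [Set.disjoint_left]
      intro y h1 h2
      exact h2 h1
  · rw [eq_top_iff, ← b.span_eq, Submodule.span_le]
    rintro _ ⟨y, rfl⟩
    exact Submodule.mem_iSup_of_mem (d y) (Submodule.subset_span ⟨y, rfl, rfl⟩)

/-- fixed vectors of a diagonal projection -/
theorem fix_iff (b : Basis Y k V) (f : V →ₗ[k] V) (P : Y → Prop) [DecidablePred P]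
    (hf : ∀ y, f (b y) = if P y then b y else 0) (v : V) :
    f v = v ↔ ∀ y, b.repr v y ≠ 0 → P y := by
  have h1 : ∀ w : V, ∀ y, b.repr (f w) y = if P y then b.repr w y else 0 := by
    intro w y
    have h2 : (Finsupp.lapply y ∘ₗ (b.repr : V →ₗ[k] Y →₀ k) ∘ₗ f)
        = (if P y then (1 : k) else 0) • (Finsupp.lapply y ∘ₗ (b.repr : V →ₗ[k] Y →₀ k)) := by
      refine b.ext fun y' => ?_
      simp only [LinearMap.coe_comp, Function.comp_apply, hf, LinearMap.smul_apply,
        LinearEquiv.coe_coe, Finsupp.lapply_apply, Basis.repr_self]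
      by_cases hy : y' = y
      · subst hy
        by_cases hp : P y'
        · simp [hp]
        · simp [hp]
      · by_cases hp : P y'
        · by_cases hq : P y
          · simp [hp, hq]
          · simp [hp, hq, hy]
        · simp [hp, hy]
    have h3 := LinearMap.congr_fun h2 w
    simp only [LinearMap.coe_comp, Function.comp_apply, LinearMap.smul_apply,
        LinearEquiv.coe_coe, Finsupp.lapply_apply] at h3
    rw [h3]
    by_cases hq : P y
    · simp [hq]
    · simp [hq]
  constructor
  · intro h y hy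
    by_contra hp
    have := h1 v y
    rw [h, if_neg hp] at this
    exact hy this
  · intro h
    apply b.repr.injective
    ext y
    rw [h1]
    by_cases hp : P y
    · rw [if_pos hp]
    · rw [if_neg hp]
      by_contra hc
      exact hp (h y (Ne.symm hc))

theorem finrank_span_image (b : Basis Y k V) [Fintype Y] (S : Set Y) :
    finrank k (Submodule.span k (b '' S)) = Nat.card S := by
  classical
  have h : b '' S = Set.range (fun x : S => b x) := by
    ext v; constructor
    · rintro ⟨y, hy, rfl⟩; exact ⟨⟨y, hy⟩, rfl⟩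
    · rintro ⟨y, rfl⟩; exact ⟨y, y.2, rfl⟩
  have h2 : LinearIndependent k (fun x : S => b x) :=
    b.linearIndependent.comp _ Subtype.val_injective
  rw [h, finrank_span_eq_card h2, Nat.card_eq_fintype_card]

end BasisGrading

/-- A finite dimensional algebra `H` with a basis `m x * eps a`, as for the group algebra of
`D : T`: `m x` are the monomials, `eps a` the idempotents of `k T`. The number `N` is the number
of degrees `0, ..., N - 1`. -/
structure KDat (k H : Type*) [Field k] [Ring H] [Algebra k H] (e : ℕ) [NeZero e] (N c : ℕ) where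
  X : Type
  fin : Fintype X
  m : X → H
  eps : ZMod e → H
  deg : X → ℕ
  rk : X → ℕ
  wt : X → ZMod e
  o : X
  top : X
  comp : X → X
  li : LinearIndependent k fun y : X × ZMod e => m y.1 * eps y.2
  sp : ⊤ ≤ Submodule.span k (Set.range fun y : X × ZMod e => m y.1 * eps y.2)
  idem : ∀ a b, eps a * eps b = if a = b then eps a else 0
  sum_eps : ∑ a, eps a = 1
  eps_m : ∀ a x, eps a * m x = m x * eps (a + wt x)
  m_o : m o = 1
  deg_o : deg o = 0
  rk_pos : ∀ x, x ≠ o → 0 < rk x
  m_mul : ∀ x y, m x * m y = 0 ∨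
    ∃ z, m x * m y = m z ∧ deg z = deg x + deg y ∧ rk z = rk x + rk y
  dual : ∀ x y, m (comp x) * m y = m top ↔ y = x
  deg_top : deg top + 1 = N
  count : ∀ (w : ℕ) (s : ZMod e), Nat.card {x // deg x = w ∧ wt x = s} =
    if w < N then (if (w : ZMod e) = s then 1 else 0) + c else 0

attribute [instance] KDat.fin

namespace KDat

variable {k H : Type*} [Field k] [Ring H] [Algebra k H] {e : ℕ} [NeZero e] {N c : ℕ}
  (S : KDat k H e N c)

/-- the basis -/
noncomputable def bas : Basis (S.X × ZMod e) k H := Basis.mk S.li S.sp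

theorem bas_apply (y : S.X × ZMod e) : S.bas y = S.m y.1 * S.eps y.2 := by
  unfold bas; rw [Basis.mk_apply]

/-- the grading with degrees in any type containing the natural numbers -/
noncomputable def gr {Δ : Type*} [NatCast Δ] (r : Δ) : Submodule k H :=
  grd S.bas (fun y => (S.deg y.1 : Δ)) r k

theorem m_eps_mem {Δ : Type*} [NatCast Δ] (x : S.X) (a : ZMod e) :
    S.m x * S.eps a ∈ S.gr (S.deg x : Δ) := by
  rw [← S.bas_apply (x, a)]
  exact Submodule.subset_span ⟨(x, a), rfl, rfl⟩

theorem m_mem {Δ : Type*} [NatCast Δ] (x : S.X) : S.m x ∈ S.gr (S.deg x : Δ) := by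
  have : S.m x = ∑ a, S.m x * S.eps a := by rw [← Finset.mul_sum, S.sum_eps, mul_one]
  rw [this]
  exact Submodule.sum_mem _ fun a _ => S.m_eps_mem x a

theorem eps_mem {Δ : Type*} [AddMonoidWithOne Δ] (a : ZMod e) : S.eps a ∈ S.gr (0 : Δ) := by
  have := S.m_eps_mem (Δ := Δ) S.o a
  rwa [S.m_o, one_mul, S.deg_o, Nat.cast_zero] at this

theorem one_mem {Δ : Type*} [AddMonoidWithOne Δ] : (1 : H) ∈ S.gr (0 : Δ) := by
  rw [← S.sum_eps]
  exact Submodule.sum_mem _ fun a _ => S.eps_mem a

/-- product of two basis members -/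
theorem bas_mul (y y' : S.X × ZMod e) :
    S.bas y * S.bas y' = if y.2 + S.wt y'.1 = y'.2 then S.m y.1 * S.m y'.1 * S.eps y'.2 else 0 := by
  rw [bas_apply, bas_apply]
  have h : S.m y.1 * S.eps y.2 * (S.m y'.1 * S.eps y'.2)
      = S.m y.1 * S.m y'.1 * (S.eps (y.2 + S.wt y'.1) * S.eps y'.2) := by
    rw [mul_assoc, ← mul_assoc (S.eps y.2), S.eps_m]
    simp only [mul_assoc]
  rw [h, S.idem]
  split_ifs with h2
  · rw [h2]
  · rw [mul_zero]

theorem mul_mem {Δ : Type*} [AddMonoidWithOne Δ] {r s : Δ} {x y : H} (hx : x ∈ S.gr r)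
    (hy : y ∈ S.gr s) : x * y ∈ S.gr (r + s) := by
  unfold gr grd at hx hy
  induction hx using Submodule.span_induction with
  | zero => rw [zero_mul]; exact Submodule.zero_mem _
  | add u v _ _ hu hv => rw [add_mul]; exact Submodule.add_mem _ hu hv
  | smul a u _ hu => rw [smul_mul_assoc]; exact Submodule.smul_mem _ _ hu
  | mem u hu =>
    obtain ⟨p, hp, rfl⟩ := hu
    induction hy using Submodule.span_induction with
    | zero => rw [mul_zero]; exact Submodule.zero_mem _
    | add u v _ _ hu hv => rw [mul_add]; exact Submodule.add_mem _ hu hv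
    | smul a u _ hu => rw [mul_smul_comm]; exact Submodule.smul_mem _ _ hu
    | mem u hu =>
      obtain ⟨q, hq, rfl⟩ := hu
      rw [S.bas_mul]
      split_ifs with h
      · rcases S.m_mul p.1 q.1 with h0 | ⟨z, hz, hd, _⟩
        · rw [h0, zero_mul]; exact Submodule.zero_mem _
        · rw [hz]
          have := S.m_eps_mem (Δ := Δ) z q.2
          rw [hd, Nat.cast_add, show (S.deg p.1 : Δ) = r from hp,
            show (S.deg q.1 : Δ) = s from hq] at this
          exact this
      · exact Submodule.zero_mem _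

theorem isInternal {Δ : Type*} [AddMonoidWithOne Δ] [DecidableEq Δ] :
    DirectSum.IsInternal fun r : Δ => S.gr r :=
  isInternal_grd S.bas _

theorem gr_cast {Δ : Type*} [AddMonoidWithOne Δ] [CharZero Δ] (w : ℕ) :
    S.gr (w : Δ) = S.gr w := by
  unfold gr grd
  congr 2
  ext y
  simp

theorem gr_eq_bot {Δ : Type*} [NatCast Δ] (r : Δ) (h : ∀ w : ℕ, w < N → (w : Δ) ≠ r) :
    S.gr r = ⊥ := by
  rw [eq_bot_iff]
  unfold gr grd
  rw [Submodule.span_le]
  rintro _ ⟨y, hy, rfl⟩
  exfalso
  have h1 := S.count (S.deg y.1) (S.wt y.1)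
  have h2 : S.deg y.1 < N := by
    by_contra hcon
    rw [if_neg hcon] at h1
    have h3 : Nat.card {x // S.deg x = S.deg y.1 ∧ S.wt x = S.wt y.1} ≠ 0 := by
      have : Nonempty {x // S.deg x = S.deg y.1 ∧ S.wt x = S.wt y.1} := ⟨⟨y.1, rfl, rfl⟩⟩
      exact Nat.card_pos.ne'
    exact h3 h1
  exact h _ h2 hy

theorem deg_lt (x : S.X) : S.deg x < N := by
  by_contra hcon
  have h1 := S.count (S.deg x) (S.wt x)
  rw [if_neg hcon] at h1
  have h3 : Nat.card {x' // S.deg x' = S.deg x ∧ S.wt x' = S.wt x} ≠ 0 := by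
    have : Nonempty {x' // S.deg x' = S.deg x ∧ S.wt x' = S.wt x} := ⟨⟨x, rfl, rfl⟩⟩
    exact Nat.card_pos.ne'
  exact h3 h1

end KDat

end P179H342
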