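import Vale.Agent.P179.H342.K2a
import Vale.Agent.P179.H175.GrDefs

/-!
# Consequences of `KDat`
-/

namespace P179H342

open Module Vale.P179.H175

namespace KDat

variable {k H : Type*} [Field k] [Ring H] [Algebra k H] {e : ℕ} [NeZero e] {N c : ℕ}
  (S : KDat k H e N c)

theorem grAlg : GrAlg (fun r : ℚ => S.gr r) where
  int := S.isInternal
  one := S.one_mem
  mul := fun hx hy => S.mul_mem hx hy

theorem eps_bas (a : ZMod e) (y : S.X × ZMod e) :
    S.eps a * S.bas y = if a + S.wt y.1 = y.2 then S.bas y else 0 := by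
  rw [bas_apply, ← mul_assoc, S.eps_m, mul_assoc, S.idem]
  split_ifs with h
  · rw [h]
  · rw [mul_zero]

theorem bas_eps (b : ZMod e) (y : S.X × ZMod e) :
    S.bas y * S.eps b = if y.2 = b then S.bas y else 0 := by
  rw [bas_apply, mul_assoc, S.idem]
  split_ifs with h
  · rfl
  · rw [mul_zero]

theorem mem_cor2_gr {Δ : Type*} [NatCast Δ] (a b : ZMod e) (r : Δ) (v : H) :
    v ∈ cor2 k (S.eps a) (S.eps b) ⊓ S.gr r ↔
      ∀ y, S.bas.repr v y ≠ 0 → (a + S.wt y.1 = y.2 ∧ y.2 = b ∧ (S.deg y.1 : Δ) = r) := by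
  rw [Submodule.mem_inf]
  have h1 := fix_iff S.bas (LinearMap.mulLeft k (S.eps a)) (fun y => a + S.wt y.1 = y.2)
    (fun y => by rw [LinearMap.mulLeft_apply, S.eps_bas]) v
  have h2 := fix_iff S.bas (LinearMap.mulRight k (S.eps b)) (fun y => y.2 = b)
    (fun y => by rw [LinearMap.mulRight_apply, S.bas_eps]) v
  rw [LinearMap.mulLeft_apply] at h1
  rw [LinearMap.mulRight_apply] at h2
  have h3 : v ∈ cor2 k (S.eps a) (S.eps b) ↔ S.eps a * v = v ∧ v * S.eps b = v := Iff.rfl
  rw [h3, h1, h2]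
  unfold gr
  rw [mem_grd]
  constructor
  · rintro ⟨⟨g1, g2⟩, g3⟩ y hy
    exact ⟨g1 y hy, g2 y hy, g3 y hy⟩
  · intro h
    exact ⟨⟨fun y hy => (h y hy).1, fun y hy => (h y hy).2.1⟩, fun y hy => (h y hy).2.2⟩

theorem finrank_cor2_gr {Δ : Type*} [AddMonoidWithOne Δ] [CharZero Δ] (a b : ZMod e) (w : ℕ) :
    finrank k ↥(cor2 k (S.eps a) (S.eps b) ⊓ S.gr (w : Δ)) =
      if w < N then (if (w : ZMod e) = b - a then 1 else 0) + c else 0 := by
  have h : cor2 k (S.eps a) (S.eps b) ⊓ S.gr (w : Δ)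
      = Submodule.span k (S.bas '' {y | a + S.wt y.1 = y.2 ∧ y.2 = b ∧ S.deg y.1 = w}) := by
    ext v
    rw [mem_cor2_gr, S.bas.mem_span_image]
    constructor
    · intro h y hy
      obtain ⟨h1, h2, h3⟩ := h y (Finsupp.mem_support_iff.mp hy)
      exact ⟨h1, h2, Nat.cast_injective h3⟩
    · intro h y hy
      obtain ⟨h1, h2, h3⟩ := h (Finsupp.mem_support_iff.mpr hy)
      exact ⟨h1, h2, by rw [h3]⟩
  rw [h, finrank_span_image, ← S.count w (b - a)]
  refine Nat.card_congr
    { toFun := fun y => ⟨y.1.1, y.2.2.2, by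
        have h1 := y.2.1
        have h2 := y.2.2.1
        exact eq_sub_of_add_eq' (h1.trans h2)⟩
      invFun := fun x => ⟨(x.1, b), by rw [x.2.2]; ring, rfl, x.2.1⟩
      left_inv := fun y => by
        apply Subtype.ext
        exact Prod.ext rfl y.2.2.1.symm
      right_inv := fun x => rfl }

/-- the graded dimension of `eps a * H * eps b` -/
theorem gd_cor2 (a b : ZMod e) :
    gd (fun r : ℚ => S.gr r) (cor2 k (S.eps a) (S.eps b)) =
      ∑ w ∈ Finset.range N, AddMonoidAlgebra.single (w : ℚ)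
        ((if (w : ZMod e) = b - a then 1 else 0) + (c : ℤ)) := by
  classical
  unfold gd
  have hs : Function.support (fun r : ℚ => (AddMonoidAlgebra.single r
      (finrank k ↥(cor2 k (S.eps a) (S.eps b) ⊓ S.gr r) : ℤ) : AddMonoidAlgebra ℤ ℚ)) ⊆
      ((Finset.range N).image (Nat.cast : ℕ → ℚ) : Finset ℚ) := by
    intro r hr
    by_contra hcon
    apply hr
    have h1 : S.gr r = ⊥ := by
      apply S.gr_eq_bot
      intro w hw hwr
      apply hcon
      rw [Finset.coe_image]
      exact ⟨w, by simpa using hw, hwr⟩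
    show AddMonoidAlgebra.single r _ = 0
    rw [h1, inf_bot_eq, finrank_bot, Nat.cast_zero, AddMonoidAlgebra.single_zero]
  rw [finsum_eq_sum_of_support_subset _ hs, Finset.sum_image (by
    intro a _ b _ hab; exact Nat.cast_injective hab)]
  refine Finset.sum_congr rfl fun w hw => ?_
  rw [S.finrank_cor2_gr a b w, if_pos (Finset.mem_range.mp hw)]
  congr 1
  push_cast
  rfl

/-- the radical -/
noncomputable def rad : Submodule k H := Submodule.span k (S.bas '' {y | y.1 ≠ S.o})

theorem mem_rad (v : H) : v ∈ S.rad ↔ ∀ y, S.bas.repr v y ≠ 0 → y.1 ≠ S.o := by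
  unfold rad
  rw [S.bas.mem_span_image]
  constructor
  · intro h y hy
    exact h (Finsupp.mem_support_iff.mpr hy)
  · intro h y hy
    exact h y (Finsupp.mem_support_iff.mp hy)

theorem m_inj {x y : S.X} (h : S.m x = S.m y) : x = y := by
  have h1 := S.li.injective (a₁ := (x, 0)) (a₂ := (y, 0)) (by simp only [h])
  exact (Prod.ext_iff.mp h1).1

theorem rk_o : S.rk S.o = 0 := by
  rcases S.m_mul S.o S.o with h | ⟨z, h1, _, h3⟩
  · exfalso
    rw [S.m_o, one_mul] at h
    have h2 := S.li.ne_zero (S.o, 0)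
    simp only [S.m_o, one_mul] at h2
    apply h2
    rw [← one_mul (S.eps 0), h, zero_mul]
  · have h4 : z = S.o := by
      apply S.m_inj
      rw [← h1, S.m_o, one_mul]
    rw [h4] at h3
    omega

/-- the powers of the radical -/
noncomputable def fil (n : ℕ) : Submodule k H := Submodule.span k (S.bas '' {y | n ≤ S.rk y.1})

theorem fil_mul {m n : ℕ} {x y : H} (hx : x ∈ S.fil m) (hy : y ∈ S.fil n) :
    x * y ∈ S.fil (m + n) := by
  unfold fil at hx hy
  induction hx using Submodule.span_induction with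
  | zero => rw [zero_mul]; exact Submodule.zero_mem _
  | add u v _ _ hu hv => rw [add_mul]; exact Submodule.add_mem _ hu hv
  | smul a u _ hu => rw [smul_mul_assoc]; exact Submodule.smul_mem _ _ hu
  | mem u hu =>
    obtain ⟨p, hp, rfl⟩ := hu
    induction hy using Submodule.span_induction with
    | zero => rw [mul_zero]; exact Submodule.zero_mem _
    | add u v _ _ hu hv => rw [mul_add]; exact Submodule.add_mem _ hu hv
    | smul a u _ hu => rw [mul_smul_comm]; exact Submodule.smul_mem _ _ hu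
    | mem u hu =>
      obtain ⟨q, hq, rfl⟩ := hu
      rw [S.bas_mul]
      split_ifs with h
      · rcases S.m_mul p.1 q.1 with h0 | ⟨z, hz, _, hd⟩
        · rw [h0, zero_mul]; exact Submodule.zero_mem _
        · rw [hz, ← S.bas_apply (z, q.2)]
          refine Submodule.subset_span ⟨(z, q.2), ?_, rfl⟩
          show m + n ≤ S.rk z
          have h1 : m ≤ S.rk p.1 := hp
          have h2 : n ≤ S.rk q.1 := hq
          omega
      · exact Submodule.zero_mem _

theorem fil_one : S.fil 1 = S.rad := by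
  unfold fil rad
  congr 2
  ext y
  constructor
  · intro h hy
    have h1 : 1 ≤ S.rk y.1 := h
    rw [hy, S.rk_o] at h1
    omega
  · intro h
    exact S.rk_pos _ h

theorem fil_zero : S.fil 0 = ⊤ := by
  rw [eq_top_iff, ← S.bas.span_eq]
  apply Submodule.span_mono
  rintro _ ⟨y, rfl⟩
  exact ⟨y, Nat.zero_le _, rfl⟩

theorem rad_mulL (a : H) {j : H} (hj : j ∈ S.rad) : a * j ∈ S.rad := by
  rw [← S.fil_one] at hj ⊢
  have := S.fil_mul (m := 0) (n := 1) (x := a) (y := j) (by rw [S.fil_zero]; trivial) hj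
  rwa [zero_add] at this

theorem rad_mulR (a : H) {j : H} (hj : j ∈ S.rad) : j * a ∈ S.rad := by
  rw [← S.fil_one] at hj ⊢
  have := S.fil_mul (m := 1) (n := 0) (x := j) (y := a) hj (by rw [S.fil_zero]; trivial)
  rwa [add_zero] at this

theorem rad_pow_le (n : ℕ) : S.rad ^ n ≤ S.fil n := by
  induction n with
  | zero => rw [S.fil_zero]; exact le_top
  | succ n ih =>
    rw [pow_succ, Submodule.mul_le]
    intro x hx y hy
    rw [← S.fil_one] at hy
    exact S.fil_mul (ih hx) hy

theorem rad_nil : ∃ n : ℕ, S.rad ^ n = ⊥ := by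
  refine ⟨(∑ x, S.rk x) + 1, ?_⟩
  rw [eq_bot_iff]
  refine (S.rad_pow_le _).trans ?_
  unfold fil
  rw [Submodule.span_le]
  rintro _ ⟨y, hy, rfl⟩
  exfalso
  have h1 : (∑ x, S.rk x) + 1 ≤ S.rk y.1 := hy
  have h2 : S.rk y.1 ≤ ∑ x, S.rk x :=
    Finset.single_le_sum (f := S.rk) (fun _ _ => Nat.zero_le _) (Finset.mem_univ y.1)
  omega

/-- `H` is the sum of the lines of the idempotents and the radical -/
theorem sub_mem_rad (v : H) : ∃ l : ZMod e → k, v - ∑ a, l a • S.eps a ∈ S.rad := by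
  classical
  refine ⟨fun a => S.bas.repr v (S.o, a), ?_⟩
  rw [S.mem_rad]
  rintro ⟨x, b⟩ hy hx
  apply hy
  have hx' : x = S.o := hx
  subst hx'
  have h1 : ∀ a, S.eps a = S.bas (S.o, a) := fun a => by rw [bas_apply, S.m_o, one_mul]
  simp only [h1, map_sub, map_sum, map_smul, Basis.repr_self, Finsupp.smul_single, smul_eq_mul,
    mul_one, Finsupp.sub_apply, Finsupp.coe_finsetSum, Finset.sum_apply]
  rw [Finset.sum_eq_single b]
  · simp
  · intro a _ hab
    rw [Finsupp.single_apply, if_neg]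
    intro h
    exact hab (Prod.ext_iff.mp h).2
  · intro h; exact absurd (Finset.mem_univ _) h

end KDat

end P179H342
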