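import Vale.Agent.P179.H342.K2b
import Vale.Agent.P179.H815.Num1
import Vale.Agent.P179.Sgn.Defs

/-!
# `HGr` from `KDat`
-/

namespace P179H342

open Module Vale.P179.H175 Vale.P179.H904

namespace KDat

variable {k H : Type*} [Field k] [Ring H] [Algebra k H] {e : ℕ} [NeZero e] {N c : ℕ}
  (S : KDat k H e N c)

theorem m_ne_zero (x : S.X) : S.m x ≠ 0 := by
  intro h
  apply S.li.ne_zero (x, 0)
  simp only [h, zero_mul]

theorem homog_rad : Homog (fun r : ℚ => S.gr r) S.rad := by
  intro x hx r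
  unfold rad at hx
  induction hx using Submodule.span_induction with
  | zero => rw [map_zero]; exact Submodule.zero_mem _
  | add u v _ _ hu hv => rw [map_add]; exact Submodule.add_mem _ hu hv
  | smul a u _ hu => rw [map_smul]; exact Submodule.smul_mem _ _ hu
  | mem u hu =>
    obtain ⟨y, hy, rfl⟩ := hu
    have h1 : S.bas y ∈ (fun r : ℚ => S.gr r) ((S.deg y.1 : ℕ) : ℚ) := by
      rw [bas_apply]; exact S.m_eps_mem y.1 y.2
    rw [Vale.P179.H815.cpt_of_mem S.isInternal h1]
    split_ifs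
    · exact Submodule.subset_span ⟨y, hy, rfl⟩
    · exact Submodule.zero_mem _

theorem eps_bas_o (a : ZMod e) : S.eps a = S.bas (S.o, a) := by rw [bas_apply, S.m_o, one_mul]

theorem eps_not_mem (a : ZMod e) : S.eps a ∉ S.rad := by
  intro h
  rw [mem_rad] at h
  apply h (S.o, a) _ rfl
  rw [S.eps_bas_o, Basis.repr_self, Finsupp.single_eq_same]
  exact one_ne_zero

theorem eps_mul_eps (i j : ZMod e) (v : H) :
    ∃ l : k, S.eps i * v * S.eps j - (if i = j then l • S.eps i else 0) ∈ S.rad := by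
  obtain ⟨l, hl⟩ := S.sub_mem_rad v
  refine ⟨l i, ?_⟩
  have h1 : S.eps i * (v - ∑ a, l a • S.eps a) * S.eps j ∈ S.rad :=
    S.rad_mulR _ (S.rad_mulL _ hl)
  have h2 : S.eps i * (∑ a, l a • S.eps a) * S.eps j = if i = j then l i • S.eps i else 0 := by
    rw [Finset.mul_sum, Finset.sum_mul, Finset.sum_eq_single i]
    · rw [mul_smul_comm, S.idem, if_pos rfl, smul_mul_assoc, S.idem]
      split_ifs
      · rfl
      · rw [smul_zero]
    · intro a _ ha
      rw [mul_smul_comm, S.idem, if_neg (Ne.symm ha), smul_zero, zero_mul]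
    · intro h; exact absurd (Finset.mem_univ _) h
  rw [mul_sub, sub_mul, h2] at h1
  exact h1

theorem basic : Basic (fun r : ℚ => S.gr r) S.rad S.eps where
  gr := S.grAlg
  hom := S.homog_rad
  mulL := fun a j hj => S.rad_mulL a hj
  mulR := fun a j hj => S.rad_mulR a hj
  nil := S.rad_nil
  idem := fun i => by rw [S.idem, if_pos rfl]
  deg := fun i => S.eps_mem i
  ne := S.eps_not_mem
  off := fun i j hij a => by
    obtain ⟨l, hl⟩ := S.eps_mul_eps i j a
    rwa [if_neg hij, sub_zero] at hl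
  diag := fun i a => by
    obtain ⟨l, hl⟩ := S.eps_mul_eps i i a
    rw [if_pos rfl] at hl
    exact ⟨l, hl⟩
  full := fun a => by
    apply Submodule.mem_sup_right
    have h : a = ∑ i, a * S.eps i * 1 := by
      simp only [mul_one]
      rw [← Finset.mul_sum, S.sum_eps, mul_one]
    rw [h]
    exact Submodule.sum_mem _ fun i _ => Submodule.subset_span ⟨i, a, 1, rfl⟩

theorem m_mem_rad {x : S.X} (hx : x ≠ S.o) : S.m x ∈ S.rad := by
  have : S.m x = ∑ a, S.m x * S.eps a := by rw [← Finset.mul_sum, S.sum_eps, mul_one]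
  rw [this]
  refine Submodule.sum_mem _ fun a _ => ?_
  rw [← S.bas_apply (x, a)]
  exact Submodule.subset_span ⟨(x, a), hx, rfl⟩

theorem nil_of_mem {v : H} (hv : v ∈ S.rad) : IsNilpotent v := by
  obtain ⟨n, hn⟩ := S.rad_nil
  refine ⟨n, ?_⟩
  have : v ^ n ∈ S.rad ^ n := Submodule.pow_mem_pow _ hv n
  rw [hn] at this
  exact this

/-- the coordinate of the top monomial -/
theorem repr_comp (x : S.X) (a : ZMod e) (v : H) :
    S.bas.repr (S.m (S.comp x) * v) (S.top, a) = S.bas.repr v (x, a) := by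
  classical
  have h2 : (Finsupp.lapply (S.top, a) ∘ₗ (S.bas.repr : H →ₗ[k] _ →₀ k) ∘ₗ
      LinearMap.mulLeft k (S.m (S.comp x)))
      = (Finsupp.lapply (x, a) ∘ₗ (S.bas.repr : H →ₗ[k] _ →₀ k)) := by
    refine S.bas.ext ?_
    rintro ⟨x', a'⟩
    simp only [LinearMap.coe_comp, Function.comp_apply, LinearMap.mulLeft_apply,
        LinearEquiv.coe_coe, Finsupp.lapply_apply, Basis.repr_self]
    rw [bas_apply, ← mul_assoc]
    have hd := S.dual x x'
    rcases S.m_mul (S.comp x) x' with h0 | ⟨z, hz, _, _⟩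
    · rw [h0, zero_mul, map_zero]
      rw [h0] at hd
      have h3 : x' ≠ x := fun h => S.m_ne_zero S.top (hd.mpr h).symm
      rw [Finsupp.single_apply, if_neg]
      · rfl
      · intro h
        exact h3 (Prod.ext_iff.mp h).1
    · rw [hz] at hd ⊢
      rw [← S.bas_apply (z, a'), Basis.repr_self, Finsupp.single_apply, Finsupp.single_apply]
      refine if_congr ?_ rfl rfl
      rw [Prod.mk.injEq, Prod.mk.injEq, ← hd]
      constructor
      · rintro ⟨h1, h2⟩; exact ⟨by rw [h1], h2⟩
      · rintro ⟨h1, h2⟩; exact ⟨S.m_inj h1, h2⟩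
  have h3 := LinearMap.congr_fun h2 v
  simpa using h3

/-- an element spanning a left ideal lies in the top degree -/
theorem top_mem {s : H} (hs : ∀ h : H, ∃ l : k, h * s = l • s) :
    s ∈ S.gr ((N : ℚ) - 1) := by
  by_cases hs0 : s = 0
  · rw [hs0]; exact Submodule.zero_mem _
  have h1 : ∀ x, x ≠ S.o → S.m x * s = 0 := by
    intro x hx
    obtain ⟨l, hl⟩ := hs (S.m x)
    obtain ⟨n, hn⟩ := S.nil_of_mem (S.m_mem_rad hx)
    have h2 : ∀ j : ℕ, S.m x ^ j * s = l ^ j • s := by
      intro j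
      induction j with
      | zero => simp
      | succ j ih => rw [pow_succ, mul_assoc, hl, mul_smul_comm, ih, smul_smul, pow_succ, mul_comm]
    have h3 := h2 n
    rw [hn, zero_mul] at h3
    have h4 : l ^ n = 0 := by
      rcases smul_eq_zero.mp h3.symm with h | h
      · exact h
      · exact absurd h hs0
    have h5 : l = 0 := by
      by_contra hc
      exact pow_ne_zero n hc h4
    rw [hl, h5, zero_smul]
  unfold gr
  rw [mem_grd]
  rintro ⟨x, a⟩ hy
  by_cases hx : x = S.top
  · show (S.deg x : ℚ) = (N : ℚ) - 1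
    have h6 : ((S.deg S.top + 1 : ℕ) : ℚ) = (N : ℚ) := by rw [S.deg_top]
    rw [hx, ← h6]
    push_cast; ring
  · exfalso
    apply hy
    rw [← S.repr_comp, h1, map_zero]
    · rfl
    · intro hc
      apply hx
      have h6 : S.m (S.comp x) * S.m x = S.m S.top := (S.dual x x).mpr rfl
      rw [hc, S.m_o, one_mul] at h6
      exact S.m_inj h6

end KDat

section HGr

open Vale.P179.Sgn

variable {k H Γ : Type} [Field k] [Ring H] [Algebra k H] [Group Γ] [Fintype Γ] {e : ℕ} [NeZero e]
  {N c : ℕ}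

/-- the structure of the signature project -/
noncomputable def KDat.hgr (S : KDat k H e N c) (γ : Γ →* H)
    (hN : ∃ q : ℕ, 1 ≤ q ∧ N = e * q + 1)
    (hs : ∀ h : H, ∃ l : k, h * ∑ g, γ g = l • ∑ g, γ g) : HGr k H Γ γ e N c where
  W := fun r => S.gr r
  J := S.rad
  ε := S.eps
  hM := hN
  basic := S.basic
  sum := S.sum_eps
  orth := fun a b hab => by rw [S.idem, if_neg hab]
  supp := fun r hr => S.gr_eq_bot r fun w hw h => hr w hw h.symm
  dim := fun a b => by rw [S.gd_cor2, CHz_apply]; push_cast; rfl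
  top := S.top_mem hs

end HGr

end P179H342
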