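import Vale.Agent.P179.H342.K2c
import Vale.Agent.P179.H342.K1Defs

/-!
# `KDat` for the group algebra of `D : T`
-/

namespace P179H342

open Module

section Idem

variable {k H : Type*} [Field k] [Ring H] [Algebra k H] {e : ℕ}

/-- powers of `T` with exponents in `ZMod e` -/
def uu (T : H) (i : ZMod e) : H := T ^ i.val

theorem uu_zero (T : H) : uu T (0 : ZMod e) = 1 := by
  unfold uu; rw [ZMod.val_zero, pow_zero]

theorem uu_nat {T : H} (hT : T ^ e = 1) (i : ℕ) : uu T (i : ZMod e) = T ^ i := by
  unfold uu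
  rw [ZMod.val_natCast]
  exact (pow_eq_pow_mod _ hT).symm

variable [NeZero e]

theorem uu_add {T : H} (hT : T ^ e = 1) (i j : ZMod e) : uu T (i + j) = uu T i * uu T j := by
  unfold uu
  rw [ZMod.val_add, ← pow_add]
  exact (pow_eq_pow_mod _ hT).symm

/-- the idempotents of `k T` -/
noncomputable def ide (χ : AddChar (ZMod e) k) (T : H) (a : ZMod e) : H :=
  (e : k)⁻¹ • ∑ i : ZMod e, χ (a * i) • uu T i

variable {χ : AddChar (ZMod e) k} {T : H}

theorem uu_ide (hT : T ^ e = 1) (a s : ZMod e) :
    uu T s * ide χ T a = χ (-(a * s)) • ide χ T a := by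
  have h : uu T s * ∑ i : ZMod e, χ (a * i) • uu T i
      = χ (-(a * s)) • ∑ i : ZMod e, χ (a * i) • uu T i := by
    rw [Finset.mul_sum, Finset.smul_sum]
    refine Fintype.sum_equiv (Equiv.addLeft s) _ _ fun i => ?_
    rw [mul_smul_comm, ← uu_add hT, smul_smul, ← AddChar.map_add_eq_mul]
    simp only [Equiv.coe_addLeft]
    congr 2
    ring
  rw [ide, mul_smul_comm, h, smul_comm]

theorem sum_char (hχ : χ.IsPrimitive) (a : ZMod e) :
    ∑ i : ZMod e, χ (a * i) = if a = 0 then (e : k) else 0 := by
  have h := AddChar.sum_mulShift a hχ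
  simp only [mul_comm _ a] at h
  rw [h, ZMod.card]
  split_ifs <;> simp

theorem ide_mul (he : (e : k) ≠ 0) (hχ : χ.IsPrimitive) (hT : T ^ e = 1) (a b : ZMod e) :
    ide χ T a * ide χ T b = if a = b then ide χ T a else 0 := by
  have h1 : ide χ T a * ide χ T b = ((e : k)⁻¹ * ∑ i : ZMod e, χ ((a - b) * i)) • ide χ T b := by
    conv_lhs => rw [ide]
    rw [smul_mul_assoc, Finset.sum_mul, mul_smul]
    congr 1
    rw [Finset.sum_smul]
    refine Finset.sum_congr rfl fun i _ => ?_
    rw [smul_mul_assoc, uu_ide hT, smul_smul, ← AddChar.map_add_eq_mul]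
    congr 2
    ring
  rw [h1, sum_char hχ]
  by_cases hab : a = b
  · rw [if_pos (sub_eq_zero.mpr hab), if_pos hab, inv_mul_cancel₀ he, one_smul, hab]
  · rw [if_neg (sub_ne_zero.mpr hab), if_neg hab, mul_zero, zero_smul]

theorem sum_ide (he : (e : k) ≠ 0) (hχ : χ.IsPrimitive) :
    ∑ a, ide χ T a = 1 := by
  unfold ide
  rw [← Finset.smul_sum, Finset.sum_comm]
  have h1 : ∀ i : ZMod e, ∑ a : ZMod e, χ (a * i) • uu T i
      = (if i = 0 then (e : k) else 0) • uu T i := by
    intro i
    rw [← Finset.sum_smul, ← sum_char hχ i]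
    simp only [mul_comm]
  simp only [h1, ite_smul, zero_smul, Finset.sum_ite_eq', Finset.mem_univ, if_true]
  rw [uu_zero, smul_smul, inv_mul_cancel₀ he, one_smul]

theorem uu_eq_sum (he : (e : k) ≠ 0) (hχ : χ.IsPrimitive) (hT : T ^ e = 1) (s : ZMod e) :
    uu T s = ∑ a, χ (-(a * s)) • ide χ T a := by
  rw [← mul_one (uu T s), ← sum_ide (T := T) he hχ, Finset.mul_sum]
  exact Finset.sum_congr rfl fun a _ => uu_ide hT a s

theorem ide_comm (x : H) (w : ZMod e)
    (hx : T * x = χ w • (x * T)) (a : ZMod e) : ide χ T a * x = x * ide χ T (a + w) := by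
  have h0 : ∀ n : ℕ, T ^ n * x = χ w ^ n • (x * T ^ n) := by
    intro n
    induction n with
    | zero => simp
    | succ n ih =>
      rw [pow_succ', mul_assoc, ih, mul_smul_comm, ← mul_assoc, hx, smul_mul_assoc, smul_smul,
        mul_assoc, pow_succ (χ w), ← pow_succ']
  have h1 : ∀ i : ZMod e, uu T i * x = χ (w * i) • (x * uu T i) := by
    intro i
    have h2 : χ (w * i) = χ w ^ i.val := by
      rw [← AddChar.map_nsmul_eq_pow, nsmul_eq_mul, ZMod.natCast_val, ZMod.cast_id, mul_comm]
    rw [h2]
    exact h0 _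
  unfold ide
  rw [smul_mul_assoc, mul_smul_comm, Finset.sum_mul, Finset.mul_sum]
  congr 1
  refine Finset.sum_congr rfl fun i _ => ?_
  rw [smul_mul_assoc, h1, mul_smul_comm, smul_smul, ← AddChar.map_add_eq_mul]
  congr 2
  ring

end Idem

section Group

variable {k : Type} [Field k] {D Γ : Type} [CommGroup D] [Group Γ] {τ : MulAut D}

/-- the embedding of group algebras -/
noncomputable def io (k : Type) [Field k] (j : D →* Γ) :
    MonoidAlgebra k D →ₐ[k] MonoidAlgebra k Γ := MonoidAlgebra.mapDomainAlgHom k k j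

theorem io_single (j : D →* Γ) (d : D) (a : k) :
    io k j (MonoidAlgebra.single d a) = MonoidAlgebra.single (j d) a := by
  unfold io
  simp

theorem T_io (j : D →* Γ) (t : Γ) (ht : ∀ d, t * j d = j (τ d) * t) (a : MonoidAlgebra k D) :
    MonoidAlgebra.single t 1 * io k j a
      = io k j (MonoidAlgebra.domCongr k k τ a) * MonoidAlgebra.single t 1 := by
  induction a using MonoidAlgebra.induction_linear with
  | zero => simp
  | add x y hx hy => rw [map_add, mul_add, hx, hy, map_add, map_add, add_mul]
  | single d r =>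
    rw [io_single, MonoidAlgebra.domCongr_single, io_single, MonoidAlgebra.single_mul_single,
      MonoidAlgebra.single_mul_single, ht, one_mul, mul_one]

theorem eig_mono {A : Type*} [CommRing A] [Algebra k A] {ι : Type*} [Fintype ι] (f : A →ₐ[k] A)
    (z : ι → A) (ζ : k) (wt : ι → ℕ) (hz : ∀ i, f (z i) = ζ ^ wt i • z i) (b : ι → ℕ) :
    f (mono z b) = ζ ^ (∑ i, b i * wt i) • mono z b := by
  unfold mono
  rw [map_prod]
  have h1 : ∀ i, f (z i ^ b i) = ζ ^ (b i * wt i) • z i ^ b i := by
    intro i
    rw [map_pow, hz, smul_pow, ← pow_mul, mul_comm (wt i)]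
  simp only [h1]
  rw [Finset.prod_smul, Finset.prod_pow_eq_pow_sum]

theorem io_injective (j : D →* Γ) (hj : Function.Injective j) :
    Function.Injective (io k j) := by
  intro a b h
  exact MonoidAlgebra.mapDomain_injective hj h

end Group

section Main

variable {k : Type} [Field k] {D Γ : Type} [CommGroup D] [Group Γ]
  {e : ℕ} {τ : MulAut D} (S : K1Dat k D τ e)

attribute [instance] K1Dat.fin

namespace K1Dat

/-- the index set of the monomials -/
abbrev box : Type := (i : S.ι) → Fin (S.q i)

theorem mono_inj (hS : LinearIndependent k fun b : S.box => mono S.z fun i => (b i : ℕ))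
    {b b' : S.box} (h : mono S.z (fun i => (b i : ℕ)) = mono S.z fun i => (b' i : ℕ)) : b = b' :=
  hS.injective h

theorem mono_box (a : S.ι → ℕ) (ha : ∀ i, a i < S.q i) :
    ∃ b : S.box, (fun i => (b i : ℕ)) = a := ⟨fun i => ⟨a i, ha i⟩, rfl⟩

theorem mono_cases (a : S.ι → ℕ) : mono S.z a = 0 ∨ ∀ i, a i < S.q i := by
  by_cases h : ∀ i, a i < S.q i
  · exact Or.inr h
  · push Not at h
    obtain ⟨i, hi⟩ := h
    exact Or.inl (mono_eq_zero S.z a S.q S.z_pow hi)

end K1Dat

theorem finrank_ma (k : Type) [Field k] (Γ : Type) [Fintype Γ] :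
    finrank k (MonoidAlgebra k Γ) = Fintype.card Γ := by
  rw [LinearEquiv.finrank_eq (MonoidAlgebra.coeffLinearEquiv k (M := Γ) (S := k)), finrank_finsupp_self]

variable [NeZero e] (he : (e : k) ≠ 0) (j : D →* Γ) (hj : Function.Injective j) (t : Γ)
  (ht : ∀ d, t * j d = j (τ d) * t) (hte : t ^ e = 1)
  (hsp : ∀ g : Γ, ∃ (d : D) (i : ℕ), g = j d * t ^ i)

/-- the character of `ZMod e` given by the root of unity -/
noncomputable def K1Dat.χ : AddChar (ZMod e) k :=
  AddChar.zmodChar e ((IsPrimitiveRoot.iff_def S.ζ e).mp S.prim).left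

include ht in
theorem T_mono (b : S.ι → ℕ) :
    (MonoidAlgebra.single t 1 : MonoidAlgebra k Γ) * io k j (mono S.z b) =
      S.χ ((∑ i, b i * S.wt i : ℕ) : ZMod e) •
        (io k j (mono S.z b) * MonoidAlgebra.single t 1) := by
  rw [T_io j t ht]
  have h := eig_mono (MonoidAlgebra.domCongr k k τ).toAlgHom S.z S.ζ S.wt S.z_eig b
  have h' : MonoidAlgebra.domCongr k k τ (mono S.z b) = S.ζ ^ (∑ i, b i * S.wt i) • mono S.z b := h
  rw [h', map_smul, smul_mul_assoc, K1Dat.χ, AddChar.zmodChar_apply']

omit [NeZero e] in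
include hte in
theorem T_pow : (MonoidAlgebra.single t 1 : MonoidAlgebra k Γ) ^ e = 1 := by
  rw [MonoidAlgebra.single_pow, hte, one_pow]
  rfl

include he hte hsp in
theorem top_le_span :
    ⊤ ≤ Submodule.span k (Set.range fun y : S.box × ZMod e =>
      io k j (mono S.z fun i => (y.1 i : ℕ)) * ide S.χ (MonoidAlgebra.single t 1) y.2) := by
  set U := Submodule.span k (Set.range fun y : S.box × ZMod e =>
      io k j (mono S.z fun i => (y.1 i : ℕ)) *
        ide S.χ (MonoidAlgebra.single t 1 : MonoidAlgebra k Γ) y.2) with hU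
  have hχ : (S.χ).IsPrimitive := AddChar.zmodChar_primitive_of_primitive_root e S.prim
  have h1 : ∀ (a : MonoidAlgebra k D) (b : ZMod e),
      io k j a * ide S.χ (MonoidAlgebra.single t 1) b ∈ U := by
    intro a b
    have ha : a ∈ Submodule.span k (Set.range fun b : S.box => mono S.z fun i => (b i : ℕ)) :=
      S.sp Submodule.mem_top
    induction ha using Submodule.span_induction with
    | zero => rw [map_zero, zero_mul]; exact Submodule.zero_mem _
    | add u v _ _ hu hv => rw [map_add, add_mul]; exact Submodule.add_mem _ hu hv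
    | smul r u _ hu => rw [map_smul, smul_mul_assoc]; exact Submodule.smul_mem _ _ hu
    | mem u hu =>
      obtain ⟨x, rfl⟩ := hu
      exact Submodule.subset_span ⟨(x, b), rfl⟩
  intro v _
  induction v using MonoidAlgebra.induction_linear with
  | zero => exact Submodule.zero_mem _
  | add x y hx hy => exact Submodule.add_mem _ (hx trivial) (hy trivial)
  | single g r =>
    obtain ⟨d, i, rfl⟩ := hsp g
    have h2 : (MonoidAlgebra.single (j d * t ^ i) r : MonoidAlgebra k Γ)
        = io k j (MonoidAlgebra.single d r) * uu (MonoidAlgebra.single t 1) (i : ZMod e) := by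
      rw [uu_nat (T_pow t hte), io_single, MonoidAlgebra.single_pow, one_pow,
        MonoidAlgebra.single_mul_single, mul_one]
    rw [h2, uu_eq_sum he hχ (T_pow t hte), Finset.mul_sum]
    refine Submodule.sum_mem _ fun a _ => ?_
    rw [mul_smul_comm]
    exact Submodule.smul_mem _ _ (h1 _ a)

/-- the structure `KDat` for the group algebra of `D : T` -/
noncomputable def kdat [Fintype D] [Fintype Γ] (hcard : Fintype.card Γ = Fintype.card D * e)
    (he : (e : k) ≠ 0) (hj : Function.Injective j)
    (ht : ∀ d, t * j d = j (τ d) * t) (hte : t ^ e = 1)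
    (hsp : ∀ g : Γ, ∃ (d : D) (i : ℕ), g = j d * t ^ i) :
    KDat k (MonoidAlgebra k Γ) e S.N S.c := by
  classical
  have hχ : (S.χ).IsPrimitive := AddChar.zmodChar_primitive_of_primitive_root e S.prim
  have hsp' := top_le_span S he j t hte hsp
  have hX : Fintype.card S.box = Fintype.card D := by
    rw [← finrank_ma k D, Module.finrank_eq_card_basis (Basis.mk S.li S.sp)]
  have hli : LinearIndependent k fun y : S.box × ZMod e =>
      io k j (mono S.z fun i => (y.1 i : ℕ)) *
        ide S.χ (MonoidAlgebra.single t 1 : MonoidAlgebra k Γ) y.2 := by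
    refine linearIndependent_of_top_le_span_of_card_eq_finrank hsp' ?_
    rw [finrank_ma k Γ, hcard, Fintype.card_prod, hX, ZMod.card]
  exact
  { X := S.box
    fin := inferInstance
    m := fun b => io k j (mono S.z fun i => (b i : ℕ))
    eps := fun a => ide S.χ (MonoidAlgebra.single t 1) a
    deg := fun b => ∑ i, (b i : ℕ) * S.dg i
    rk := fun b => ∑ i, (b i : ℕ)
    wt := fun b => ((∑ i, (b i : ℕ) * S.wt i : ℕ) : ZMod e)
    o := fun i => ⟨0, S.q_pos i⟩
    top := fun i => ⟨S.q i - 1, Nat.sub_lt (S.q_pos i) one_pos⟩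
    comp := fun b i => ⟨S.q i - 1 - (b i : ℕ), lt_of_le_of_lt (Nat.sub_le _ _)
      (Nat.sub_lt (S.q_pos i) one_pos)⟩
    li := hli
    sp := hsp'
    idem := fun a b => ide_mul he hχ (T_pow t hte) a b
    sum_eps := sum_ide he hχ
    eps_m := fun a x => ide_comm _ _ (T_mono S j t ht _) a
    m_o := by
      have h : mono S.z (fun i => ((⟨0, S.q_pos i⟩ : Fin (S.q i)) : ℕ)) = 1 := mono_zero S.z
      show io k j (mono S.z (fun i => ((⟨0, S.q_pos i⟩ : Fin (S.q i)) : ℕ))) = 1
      rw [h, map_one]
    deg_o := by simp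
    rk_pos := fun x hx => by
      by_contra hc
      apply hx
      funext i
      apply Fin.ext
      have h1 : ∑ i, (x i : ℕ) = 0 := by omega
      exact (Finset.sum_eq_zero_iff.mp h1) i (Finset.mem_univ i)
    m_mul := fun x y => by
      rw [← map_mul, ← mono_add]
      rcases S.mono_cases ((fun i => (x i : ℕ)) + fun i => (y i : ℕ)) with h | h
      · left; rw [h, map_zero]
      · right
        refine ⟨fun i => ⟨_, h i⟩, rfl, ?_, ?_⟩
        · show ∑ i, ((x i : ℕ) + (y i : ℕ)) * S.dg i = _
          simp only [add_mul, Finset.sum_add_distrib]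
        · show ∑ i, ((x i : ℕ) + (y i : ℕ)) = _
          rw [Finset.sum_add_distrib]
    dual := fun x y => by
      rw [← map_mul, ← mono_add]
      constructor
      · intro h
        have h' := io_injective j hj h
        rcases S.mono_cases ((fun i => S.q i - 1 - (x i : ℕ)) + fun i => (y i : ℕ)) with h0 | h0
        · exfalso
          have h2 := S.li.ne_zero (fun i => ⟨S.q i - 1, Nat.sub_lt (S.q_pos i) one_pos⟩)
          apply h2
          rw [← h0]
          exact h'.symm
        · obtain ⟨b, hb⟩ := S.mono_box _ h0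
          have h3 : b = fun i => ⟨S.q i - 1, Nat.sub_lt (S.q_pos i) one_pos⟩ := by
            apply S.mono_inj S.li
            rw [hb]
            exact h'
          funext i
          apply Fin.ext
          have h4 := congrFun hb i
          rw [h3] at h4
          have h5 : S.q i - 1 = S.q i - 1 - (x i : ℕ) + (y i : ℕ) := h4
          have h6 := (x i).2
          omega
      · rintro rfl
        congr 2
        funext i
        have h6 := (y i).2
        show S.q i - 1 - (y i : ℕ) + (y i : ℕ) = S.q i - 1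
        omega
    deg_top := S.top
    count := S.count }

end Main

end P179H342
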