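import Vale.Agent.P179.H342.K2d

/-!
# `S4A` from `K1`
-/

namespace P179H342

open Module Vale.P179.Sgn

theorem mul_sum_of (k : Type) [Field k] (Γ : Type) [Group Γ] [Fintype Γ] (h : MonoidAlgebra k Γ) :
    ∃ l : k, h * ∑ g, MonoidAlgebra.of k Γ g = l • ∑ g, MonoidAlgebra.of k Γ g := by
  induction h using MonoidAlgebra.induction_linear with
  | zero => exact ⟨0, by simp⟩
  | add x y hx hy =>
    obtain ⟨a, ha⟩ := hx
    obtain ⟨b, hb⟩ := hy
    exact ⟨a + b, by rw [add_mul, ha, hb, add_smul]⟩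
  | single g r =>
    refine ⟨r, ?_⟩
    rw [Finset.mul_sum, Finset.smul_sum]
    refine Fintype.sum_equiv (Equiv.mulLeft g) _ _ fun x => ?_
    simp [MonoidAlgebra.of_apply, MonoidAlgebra.single_mul_single, MonoidAlgebra.smul_single]

theorem not_dvd_of_free (p : ℕ) [Fact p.Prime] {D : Type} [Group D] [Finite D] (τ : MulAut D)
    (e : ℕ) (he : e ≠ 0) (hD : IsPGroup p D) [Nontrivial D] (hτ : τ ^ e = 1)
    (hfree : ∀ (i : ℕ) (d : D), d ≠ 1 → (τ ^ i) d = d → e ∣ i) : ¬ p ∣ e := by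
  rintro ⟨n, rfl⟩
  have hp : p.Prime := Fact.out
  have hn : n ≠ 0 := by rintro rfl; exact he (mul_zero _)
  set G := Subgroup.zpowers (τ ^ n) with hG
  have hGp : IsPGroup p G := by
    intro g
    refine ⟨1, ?_⟩
    obtain ⟨x, hx⟩ := g
    obtain ⟨m, hm⟩ := Subgroup.mem_zpowers_iff.mp hx
    apply Subtype.ext
    show x ^ p ^ 1 = 1
    rw [pow_one, ← hm, ← zpow_natCast, ← zpow_mul, mul_comm m, zpow_mul, zpow_natCast,
      ← pow_mul, mul_comm n p, hτ, one_zpow]
  have h1 : p ∣ Nat.card D := by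
    obtain ⟨m, hm⟩ := hD.exists_card_eq
    rw [hm]
    refine dvd_pow_self p ?_
    rintro rfl
    rw [pow_zero] at hm
    have := Finite.one_lt_card (α := D)
    omega
  have h2 : (1 : D) ∈ MulAction.fixedPoints G D := by
    intro g
    show (g : MulAut D) 1 = 1
    exact map_one _
  obtain ⟨b, hb, hb1⟩ := hGp.exists_fixed_point_of_prime_dvd_card_of_fixed_point D h1 h2
  have h3 := hfree n b (Ne.symm hb1) (hb ⟨τ ^ n, Subgroup.mem_zpowers _⟩)
  have h4 := Nat.le_of_dvd (Nat.pos_of_ne_zero hn) h3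
  have h5 := hp.two_le
  have h6 : 0 < n := Nat.pos_of_ne_zero hn
  nlinarith

theorem s4a_of (hK : K1) : S4A := by
  intro p _ k _ _ _ Γ _ _ e _ hF
  obtain ⟨D, t, hN, hP, hc, hne, ho, hcompl, hfree⟩ := hF
  have he : e ≠ 0 := NeZero.ne e
  let _ : CommGroup D := { (inferInstance : Group D) with
    mul_comm := fun x y => Subtype.ext (hc x x.2 y y.2) }
  have _ : Fintype D := Fintype.ofFinite D
  have hnt : Nontrivial D := (Subgroup.nontrivial_iff_ne_bot D).mpr hne
  have hte : t ^ e = 1 := by rw [← ho]; exact pow_orderOf_eq_one t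
  set τ : MulAut D := MulAut.conjNormal t with hτ
  have hτi : ∀ (i : ℕ) (d : D), (((τ ^ i) d : D) : Γ) = t ^ i * d * (t ^ i)⁻¹ := by
    intro i d
    rw [hτ, ← map_pow, MulAut.conjNormal_apply]
  have hτe : τ ^ e = 1 := by
    ext d
    rw [hτi, hte]
    simp
  have hτf : ∀ (i : ℕ) (d : D), d ≠ 1 → (τ ^ i) d = d → e ∣ i := by
    intro i d hd h
    apply hfree i d d.2 (fun h1 => hd (Subtype.ext h1))
    have h2 := congrArg (Subtype.val) h
    rw [hτi] at h2
    exact mul_inv_eq_iff_eq_mul.mp h2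
  have hpe : ¬ p ∣ e := not_dvd_of_free p τ e he hP hτe hτf
  obtain ⟨S⟩ := hK p k D τ e he hpe hP hnt hτe hτf
  have hek : (e : k) ≠ 0 := by
    intro h
    exact hpe ((CharP.cast_eq_zero_iff k p e).mp h)
  have hcard : Fintype.card Γ = Fintype.card D * e := by
    have := hcompl.card_mul_card
    rw [Nat.card_zpowers, ho] at this
    rw [← Nat.card_eq_fintype_card, ← Nat.card_eq_fintype_card, this]
  have hsp : ∀ g : Γ, ∃ (d : D) (i : ℕ), g = D.subtype d * t ^ i := by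
    intro g
    obtain ⟨⟨x, y⟩, hxy⟩ := hcompl.2 g
    obtain ⟨i, hi⟩ := mem_powers_iff_mem_zpowers.mpr y.2
    refine ⟨x, i, ?_⟩
    rw [← hxy]
    show (x : Γ) * (y : Γ) = x * t ^ i
    rw [← hi]
  have ht : ∀ d, t * D.subtype d = D.subtype (τ d) * t := by
    intro d
    have := hτi 1 d
    rw [pow_one, pow_one] at this
    show t * (d : Γ) = ((τ d : D) : Γ) * t
    rw [this]; group
  exact ⟨S.N, S.c, ⟨(kdat S D.subtype t hcard hek D.subtype_injective ht hte hsp).hgr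
    (MonoidAlgebra.of k Γ) S.hN (mul_sum_of k Γ)⟩⟩

end P179H342
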