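import Vale.Agent.P179.H342.K2a
import Vale.Agent.P179.H815.Num1

/-!
# The structure `GDat`: as `KDat`, with arbitrary multiplicities
-/

namespace P179H342

open Module Vale.P179.H175 Vale.P179.H904

/-- A finite dimensional algebra `H` with a basis `m x * eps a`, as for the group algebra of
`D : T`: `m x` are the monomials, `eps a` the idempotents of `k T`. The number `N` is the number
of degrees `0, ..., N - 1`. -/
structure GDat (k H : Type*) [Field k] [Ring H] [Algebra k H] (e : ℕ) [NeZero e] (N : ℕ)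
    (num : ℕ → ZMod e → ℕ) where
  X : Type
  fin : Fintype X
  m : X → H
  eps : ZMod e → H
  deg : X → ℕ
  rk : X → ℕ
  wt : X → ZMod e
  o : X
  top : X
  comp : X → X
  li : LinearIndependent k fun y : X × ZMod e => m y.1 * eps y.2
  sp : ⊤ ≤ Submodule.span k (Set.range fun y : X × ZMod e => m y.1 * eps y.2)
  idem : ∀ a b, eps a * eps b = if a = b then eps a else 0
  sum_eps : ∑ a, eps a = 1
  eps_m : ∀ a x, eps a * m x = m x * eps (a + wt x)
  m_o : m o = 1
  deg_o : deg o = 0
  rk_pos : ∀ x, x ≠ o → 0 < rk x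
  m_mul : ∀ x y, m x * m y = 0 ∨
    ∃ z, m x * m y = m z ∧ deg z = deg x + deg y ∧ rk z = rk x + rk y
  dual : ∀ x y, m (comp x) * m y = m top ↔ y = x
  deg_top : deg top + 1 = N
  count : ∀ (w : ℕ) (s : ZMod e), Nat.card {x // deg x = w ∧ wt x = s} =
    if w < N then num w s else 0

attribute [instance] GDat.fin

namespace GDat

variable {k H : Type*} [Field k] [Ring H] [Algebra k H] {e : ℕ} [NeZero e] {N : ℕ}
  {num : ℕ → ZMod e → ℕ}
  (S : GDat k H e N num)

/-- the basis -/
noncomputable def bas : Basis (S.X × ZMod e) k H := Basis.mk S.li S.sp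

theorem bas_apply (y : S.X × ZMod e) : S.bas y = S.m y.1 * S.eps y.2 := by
  unfold bas; rw [Basis.mk_apply]

/-- the grading with degrees in any type containing the natural numbers -/
noncomputable def gr {Δ : Type*} [NatCast Δ] (r : Δ) : Submodule k H :=
  grd S.bas (fun y => (S.deg y.1 : Δ)) r k

theorem m_eps_mem {Δ : Type*} [NatCast Δ] (x : S.X) (a : ZMod e) :
    S.m x * S.eps a ∈ S.gr (S.deg x : Δ) := by
  rw [← S.bas_apply (x, a)]
  exact Submodule.subset_span ⟨(x, a), rfl, rfl⟩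

theorem m_mem {Δ : Type*} [NatCast Δ] (x : S.X) : S.m x ∈ S.gr (S.deg x : Δ) := by
  have : S.m x = ∑ a, S.m x * S.eps a := by rw [← Finset.mul_sum, S.sum_eps, mul_one]
  rw [this]
  exact Submodule.sum_mem _ fun a _ => S.m_eps_mem x a

theorem eps_mem {Δ : Type*} [AddMonoidWithOne Δ] (a : ZMod e) : S.eps a ∈ S.gr (0 : Δ) := by
  have := S.m_eps_mem (Δ := Δ) S.o a
  rwa [S.m_o, one_mul, S.deg_o, Nat.cast_zero] at this

theorem one_mem {Δ : Type*} [AddMonoidWithOne Δ] : (1 : H) ∈ S.gr (0 : Δ) := by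
  rw [← S.sum_eps]
  exact Submodule.sum_mem _ fun a _ => S.eps_mem a

/-- product of two basis members -/
theorem bas_mul (y y' : S.X × ZMod e) :
    S.bas y * S.bas y' = if y.2 + S.wt y'.1 = y'.2 then S.m y.1 * S.m y'.1 * S.eps y'.2 else 0 := by
  rw [bas_apply, bas_apply]
  have h : S.m y.1 * S.eps y.2 * (S.m y'.1 * S.eps y'.2)
      = S.m y.1 * S.m y'.1 * (S.eps (y.2 + S.wt y'.1) * S.eps y'.2) := by
    rw [mul_assoc, ← mul_assoc (S.eps y.2), S.eps_m]
    simp only [mul_assoc]
  rw [h, S.idem]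
  split_ifs with h2
  · rw [h2]
  · rw [mul_zero]

theorem mul_mem {Δ : Type*} [AddMonoidWithOne Δ] {r s : Δ} {x y : H} (hx : x ∈ S.gr r)
    (hy : y ∈ S.gr s) : x * y ∈ S.gr (r + s) := by
  unfold gr grd at hx hy
  induction hx using Submodule.span_induction with
  | zero => rw [zero_mul]; exact Submodule.zero_mem _
  | add u v _ _ hu hv => rw [add_mul]; exact Submodule.add_mem _ hu hv
  | smul a u _ hu => rw [smul_mul_assoc]; exact Submodule.smul_mem _ _ hu
  | mem u hu =>
    obtain ⟨p, hp, rfl⟩ := hu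
    induction hy using Submodule.span_induction with
    | zero => rw [mul_zero]; exact Submodule.zero_mem _
    | add u v _ _ hu hv => rw [mul_add]; exact Submodule.add_mem _ hu hv
    | smul a u _ hu => rw [mul_smul_comm]; exact Submodule.smul_mem _ _ hu
    | mem u hu =>
      obtain ⟨q, hq, rfl⟩ := hu
      rw [S.bas_mul]
      split_ifs with h
      · rcases S.m_mul p.1 q.1 with h0 | ⟨z, hz, hd, _⟩
        · rw [h0, zero_mul]; exact Submodule.zero_mem _
        · rw [hz]
          have := S.m_eps_mem (Δ := Δ) z q.2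
          rw [hd, Nat.cast_add, show (S.deg p.1 : Δ) = r from hp,
            show (S.deg q.1 : Δ) = s from hq] at this
          exact this
      · exact Submodule.zero_mem _

theorem isInternal {Δ : Type*} [AddMonoidWithOne Δ] [DecidableEq Δ] :
    DirectSum.IsInternal fun r : Δ => S.gr r :=
  isInternal_grd S.bas _

theorem gr_cast {Δ : Type*} [AddMonoidWithOne Δ] [CharZero Δ] (w : ℕ) :
    S.gr (w : Δ) = S.gr w := by
  unfold gr grd
  congr 2
  ext y
  simp

theorem gr_eq_bot {Δ : Type*} [NatCast Δ] (r : Δ) (h : ∀ w : ℕ, w < N → (w : Δ) ≠ r) :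
    S.gr r = ⊥ := by
  rw [eq_bot_iff]
  unfold gr grd
  rw [Submodule.span_le]
  rintro _ ⟨y, hy, rfl⟩
  exfalso
  have h1 := S.count (S.deg y.1) (S.wt y.1)
  have h2 : S.deg y.1 < N := by
    by_contra hcon
    rw [if_neg hcon] at h1
    have h3 : Nat.card {x // S.deg x = S.deg y.1 ∧ S.wt x = S.wt y.1} ≠ 0 := by
      have : Nonempty {x // S.deg x = S.deg y.1 ∧ S.wt x = S.wt y.1} := ⟨⟨y.1, rfl, rfl⟩⟩
      exact Nat.card_pos.ne'
    exact h3 h1
  exact h _ h2 hy

theorem deg_lt (x : S.X) : S.deg x < N := by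
  by_contra hcon
  have h1 := S.count (S.deg x) (S.wt x)
  rw [if_neg hcon] at h1
  have h3 : Nat.card {x' // S.deg x' = S.deg x ∧ S.wt x' = S.wt x} ≠ 0 := by
    have : Nonempty {x' // S.deg x' = S.deg x ∧ S.wt x' = S.wt x} := ⟨⟨x, rfl, rfl⟩⟩
    exact Nat.card_pos.ne'
  exact h3 h1

end GDat


namespace GDat

variable {k H : Type*} [Field k] [Ring H] [Algebra k H] {e : ℕ} [NeZero e] {N : ℕ}
  {num : ℕ → ZMod e → ℕ}
  (S : GDat k H e N num)

theorem grAlg : GrAlg (fun r : ℚ => S.gr r) where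
  int := S.isInternal
  one := S.one_mem
  mul := fun hx hy => S.mul_mem hx hy

theorem eps_bas (a : ZMod e) (y : S.X × ZMod e) :
    S.eps a * S.bas y = if a + S.wt y.1 = y.2 then S.bas y else 0 := by
  rw [bas_apply, ← mul_assoc, S.eps_m, mul_assoc, S.idem]
  split_ifs with h
  · rw [h]
  · rw [mul_zero]

theorem bas_eps (b : ZMod e) (y : S.X × ZMod e) :
    S.bas y * S.eps b = if y.2 = b then S.bas y else 0 := by
  rw [bas_apply, mul_assoc, S.idem]
  split_ifs with h
  · rfl
  · rw [mul_zero]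

theorem mem_cor2_gr {Δ : Type*} [NatCast Δ] (a b : ZMod e) (r : Δ) (v : H) :
    v ∈ cor2 k (S.eps a) (S.eps b) ⊓ S.gr r ↔
      ∀ y, S.bas.repr v y ≠ 0 → (a + S.wt y.1 = y.2 ∧ y.2 = b ∧ (S.deg y.1 : Δ) = r) := by
  rw [Submodule.mem_inf]
  have h1 := fix_iff S.bas (LinearMap.mulLeft k (S.eps a)) (fun y => a + S.wt y.1 = y.2)
    (fun y => by rw [LinearMap.mulLeft_apply, S.eps_bas]) v
  have h2 := fix_iff S.bas (LinearMap.mulRight k (S.eps b)) (fun y => y.2 = b)
    (fun y => by rw [LinearMap.mulRight_apply, S.bas_eps]) v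
  rw [LinearMap.mulLeft_apply] at h1
  rw [LinearMap.mulRight_apply] at h2
  have h3 : v ∈ cor2 k (S.eps a) (S.eps b) ↔ S.eps a * v = v ∧ v * S.eps b = v := Iff.rfl
  rw [h3, h1, h2]
  unfold gr
  rw [mem_grd]
  constructor
  · rintro ⟨⟨g1, g2⟩, g3⟩ y hy
    exact ⟨g1 y hy, g2 y hy, g3 y hy⟩
  · intro h
    exact ⟨⟨fun y hy => (h y hy).1, fun y hy => (h y hy).2.1⟩, fun y hy => (h y hy).2.2⟩

theorem finrank_cor2_gr {Δ : Type*} [AddMonoidWithOne Δ] [CharZero Δ] (a b : ZMod e) (w : ℕ) :
    finrank k ↥(cor2 k (S.eps a) (S.eps b) ⊓ S.gr (w : Δ)) =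
      if w < N then num w (b - a) else 0 := by
  have h : cor2 k (S.eps a) (S.eps b) ⊓ S.gr (w : Δ)
      = Submodule.span k (S.bas '' {y | a + S.wt y.1 = y.2 ∧ y.2 = b ∧ S.deg y.1 = w}) := by
    ext v
    rw [mem_cor2_gr, S.bas.mem_span_image]
    constructor
    · intro h y hy
      obtain ⟨h1, h2, h3⟩ := h y (Finsupp.mem_support_iff.mp hy)
      exact ⟨h1, h2, Nat.cast_injective h3⟩
    · intro h y hy
      obtain ⟨h1, h2, h3⟩ := h (Finsupp.mem_support_iff.mpr hy)
      exact ⟨h1, h2, by rw [h3]⟩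
  rw [h, finrank_span_image, ← S.count w (b - a)]
  refine Nat.card_congr
    { toFun := fun y => ⟨y.1.1, y.2.2.2, by
        have h1 := y.2.1
        have h2 := y.2.2.1
        exact eq_sub_of_add_eq' (h1.trans h2)⟩
      invFun := fun x => ⟨(x.1, b), by rw [x.2.2]; ring, rfl, x.2.1⟩
      left_inv := fun y => by
        apply Subtype.ext
        exact Prod.ext rfl y.2.2.1.symm
      right_inv := fun x => rfl }

/-- the graded dimension of `eps a * H * eps b` -/
theorem gd_cor2 (a b : ZMod e) :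
    gd (fun r : ℚ => S.gr r) (cor2 k (S.eps a) (S.eps b)) =
      ∑ w ∈ Finset.range N, AddMonoidAlgebra.single (w : ℚ) (num w (b - a) : ℤ) := by
  classical
  unfold gd
  have hs : Function.support (fun r : ℚ => (AddMonoidAlgebra.single r
      (finrank k ↥(cor2 k (S.eps a) (S.eps b) ⊓ S.gr r) : ℤ) : AddMonoidAlgebra ℤ ℚ)) ⊆
      ((Finset.range N).image (Nat.cast : ℕ → ℚ) : Finset ℚ) := by
    intro r hr
    by_contra hcon
    apply hr
    have h1 : S.gr r = ⊥ := by
      apply S.gr_eq_bot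
      intro w hw hwr
      apply hcon
      rw [Finset.coe_image]
      exact ⟨w, by simpa using hw, hwr⟩
    show AddMonoidAlgebra.single r _ = 0
    rw [h1, inf_bot_eq, finrank_bot, Nat.cast_zero, AddMonoidAlgebra.single_zero]
  rw [finsum_eq_sum_of_support_subset _ hs, Finset.sum_image (by
    intro a _ b _ hab; exact Nat.cast_injective hab)]
  refine Finset.sum_congr rfl fun w hw => ?_
  rw [S.finrank_cor2_gr a b w, if_pos (Finset.mem_range.mp hw)]

/-- the radical -/
noncomputable def rad : Submodule k H := Submodule.span k (S.bas '' {y | y.1 ≠ S.o})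

theorem mem_rad (v : H) : v ∈ S.rad ↔ ∀ y, S.bas.repr v y ≠ 0 → y.1 ≠ S.o := by
  unfold rad
  rw [S.bas.mem_span_image]
  constructor
  · intro h y hy
    exact h (Finsupp.mem_support_iff.mpr hy)
  · intro h y hy
    exact h y (Finsupp.mem_support_iff.mp hy)

theorem m_inj {x y : S.X} (h : S.m x = S.m y) : x = y := by
  have h1 := S.li.injective (a₁ := (x, 0)) (a₂ := (y, 0)) (by simp only [h])
  exact (Prod.ext_iff.mp h1).1

theorem rk_o : S.rk S.o = 0 := by
  rcases S.m_mul S.o S.o with h | ⟨z, h1, _, h3⟩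
  · exfalso
    rw [S.m_o, one_mul] at h
    have h2 := S.li.ne_zero (S.o, 0)
    simp only [S.m_o, one_mul] at h2
    apply h2
    rw [← one_mul (S.eps 0), h, zero_mul]
  · have h4 : z = S.o := by
      apply S.m_inj
      rw [← h1, S.m_o, one_mul]
    rw [h4] at h3
    omega

/-- the powers of the radical -/
noncomputable def fil (n : ℕ) : Submodule k H := Submodule.span k (S.bas '' {y | n ≤ S.rk y.1})

theorem fil_mul {m n : ℕ} {x y : H} (hx : x ∈ S.fil m) (hy : y ∈ S.fil n) :
    x * y ∈ S.fil (m + n) := by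
  unfold fil at hx hy
  induction hx using Submodule.span_induction with
  | zero => rw [zero_mul]; exact Submodule.zero_mem _
  | add u v _ _ hu hv => rw [add_mul]; exact Submodule.add_mem _ hu hv
  | smul a u _ hu => rw [smul_mul_assoc]; exact Submodule.smul_mem _ _ hu
  | mem u hu =>
    obtain ⟨p, hp, rfl⟩ := hu
    induction hy using Submodule.span_induction with
    | zero => rw [mul_zero]; exact Submodule.zero_mem _
    | add u v _ _ hu hv => rw [mul_add]; exact Submodule.add_mem _ hu hv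
    | smul a u _ hu => rw [mul_smul_comm]; exact Submodule.smul_mem _ _ hu
    | mem u hu =>
      obtain ⟨q, hq, rfl⟩ := hu
      rw [S.bas_mul]
      split_ifs with h
      · rcases S.m_mul p.1 q.1 with h0 | ⟨z, hz, _, hd⟩
        · rw [h0, zero_mul]; exact Submodule.zero_mem _
        · rw [hz, ← S.bas_apply (z, q.2)]
          refine Submodule.subset_span ⟨(z, q.2), ?_, rfl⟩
          show m + n ≤ S.rk z
          have h1 : m ≤ S.rk p.1 := hp
          have h2 : n ≤ S.rk q.1 := hq
          omega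
      · exact Submodule.zero_mem _

theorem fil_one : S.fil 1 = S.rad := by
  unfold fil rad
  congr 2
  ext y
  constructor
  · intro h hy
    have h1 : 1 ≤ S.rk y.1 := h
    rw [hy, S.rk_o] at h1
    omega
  · intro h
    exact S.rk_pos _ h

theorem fil_zero : S.fil 0 = ⊤ := by
  rw [eq_top_iff, ← S.bas.span_eq]
  apply Submodule.span_mono
  rintro _ ⟨y, rfl⟩
  exact ⟨y, Nat.zero_le _, rfl⟩

theorem rad_mulL (a : H) {j : H} (hj : j ∈ S.rad) : a * j ∈ S.rad := by
  rw [← S.fil_one] at hj ⊢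
  have := S.fil_mul (m := 0) (n := 1) (x := a) (y := j) (by rw [S.fil_zero]; trivial) hj
  rwa [zero_add] at this

theorem rad_mulR (a : H) {j : H} (hj : j ∈ S.rad) : j * a ∈ S.rad := by
  rw [← S.fil_one] at hj ⊢
  have := S.fil_mul (m := 1) (n := 0) (x := j) (y := a) hj (by rw [S.fil_zero]; trivial)
  rwa [add_zero] at this

theorem rad_pow_le (n : ℕ) : S.rad ^ n ≤ S.fil n := by
  induction n with
  | zero => rw [S.fil_zero]; exact le_top
  | succ n ih =>
    rw [pow_succ, Submodule.mul_le]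
    intro x hx y hy
    rw [← S.fil_one] at hy
    exact S.fil_mul (ih hx) hy

theorem rad_nil : ∃ n : ℕ, S.rad ^ n = ⊥ := by
  refine ⟨(∑ x, S.rk x) + 1, ?_⟩
  rw [eq_bot_iff]
  refine (S.rad_pow_le _).trans ?_
  unfold fil
  rw [Submodule.span_le]
  rintro _ ⟨y, hy, rfl⟩
  exfalso
  have h1 : (∑ x, S.rk x) + 1 ≤ S.rk y.1 := hy
  have h2 : S.rk y.1 ≤ ∑ x, S.rk x :=
    Finset.single_le_sum (f := S.rk) (fun _ _ => Nat.zero_le _) (Finset.mem_univ y.1)
  omega

/-- `H` is the sum of the lines of the idempotents and the radical -/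
theorem sub_mem_rad (v : H) : ∃ l : ZMod e → k, v - ∑ a, l a • S.eps a ∈ S.rad := by
  classical
  refine ⟨fun a => S.bas.repr v (S.o, a), ?_⟩
  rw [S.mem_rad]
  rintro ⟨x, b⟩ hy hx
  apply hy
  have hx' : x = S.o := hx
  subst hx'
  have h1 : ∀ a, S.eps a = S.bas (S.o, a) := fun a => by rw [bas_apply, S.m_o, one_mul]
  simp only [h1, map_sub, map_sum, map_smul, Basis.repr_self, Finsupp.smul_single, smul_eq_mul,
    mul_one, Finsupp.sub_apply, Finsupp.coe_finsetSum, Finset.sum_apply]
  rw [Finset.sum_eq_single b]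
  · simp
  · intro a _ hab
    rw [Finsupp.single_apply, if_neg]
    intro h
    exact hab (Prod.ext_iff.mp h).2
  · intro h; exact absurd (Finset.mem_univ _) h

end GDat


namespace GDat

variable {k H : Type*} [Field k] [Ring H] [Algebra k H] {e : ℕ} [NeZero e] {N : ℕ}
  {num : ℕ → ZMod e → ℕ}
  (S : GDat k H e N num)

theorem m_ne_zero (x : S.X) : S.m x ≠ 0 := by
  intro h
  apply S.li.ne_zero (x, 0)
  simp only [h, zero_mul]

theorem homog_rad : Homog (fun r : ℚ => S.gr r) S.rad := by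
  intro x hx r
  unfold rad at hx
  induction hx using Submodule.span_induction with
  | zero => rw [map_zero]; exact Submodule.zero_mem _
  | add u v _ _ hu hv => rw [map_add]; exact Submodule.add_mem _ hu hv
  | smul a u _ hu => rw [map_smul]; exact Submodule.smul_mem _ _ hu
  | mem u hu =>
    obtain ⟨y, hy, rfl⟩ := hu
    have h1 : S.bas y ∈ (fun r : ℚ => S.gr r) ((S.deg y.1 : ℕ) : ℚ) := by
      rw [bas_apply]; exact S.m_eps_mem y.1 y.2
    rw [Vale.P179.H815.cpt_of_mem S.isInternal h1]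
    split_ifs
    · exact Submodule.subset_span ⟨y, hy, rfl⟩
    · exact Submodule.zero_mem _

theorem eps_bas_o (a : ZMod e) : S.eps a = S.bas (S.o, a) := by rw [bas_apply, S.m_o, one_mul]

theorem eps_not_mem (a : ZMod e) : S.eps a ∉ S.rad := by
  intro h
  rw [mem_rad] at h
  apply h (S.o, a) _ rfl
  rw [S.eps_bas_o, Basis.repr_self, Finsupp.single_eq_same]
  exact one_ne_zero

theorem eps_mul_eps (i j : ZMod e) (v : H) :
    ∃ l : k, S.eps i * v * S.eps j - (if i = j then l • S.eps i else 0) ∈ S.rad := by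
  obtain ⟨l, hl⟩ := S.sub_mem_rad v
  refine ⟨l i, ?_⟩
  have h1 : S.eps i * (v - ∑ a, l a • S.eps a) * S.eps j ∈ S.rad :=
    S.rad_mulR _ (S.rad_mulL _ hl)
  have h2 : S.eps i * (∑ a, l a • S.eps a) * S.eps j = if i = j then l i • S.eps i else 0 := by
    rw [Finset.mul_sum, Finset.sum_mul, Finset.sum_eq_single i]
    · rw [mul_smul_comm, S.idem, if_pos rfl, smul_mul_assoc, S.idem]
      split_ifs
      · rfl
      · rw [smul_zero]
    · intro a _ ha
      rw [mul_smul_comm, S.idem, if_neg (Ne.symm ha), smul_zero, zero_mul]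
    · intro h; exact absurd (Finset.mem_univ _) h
  rw [mul_sub, sub_mul, h2] at h1
  exact h1

theorem basic : Basic (fun r : ℚ => S.gr r) S.rad S.eps where
  gr := S.grAlg
  hom := S.homog_rad
  mulL := fun a j hj => S.rad_mulL a hj
  mulR := fun a j hj => S.rad_mulR a hj
  nil := S.rad_nil
  idem := fun i => by rw [S.idem, if_pos rfl]
  deg := fun i => S.eps_mem i
  ne := S.eps_not_mem
  off := fun i j hij a => by
    obtain ⟨l, hl⟩ := S.eps_mul_eps i j a
    rwa [if_neg hij, sub_zero] at hl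
  diag := fun i a => by
    obtain ⟨l, hl⟩ := S.eps_mul_eps i i a
    rw [if_pos rfl] at hl
    exact ⟨l, hl⟩
  full := fun a => by
    apply Submodule.mem_sup_right
    have h : a = ∑ i, a * S.eps i * 1 := by
      simp only [mul_one]
      rw [← Finset.mul_sum, S.sum_eps, mul_one]
    rw [h]
    exact Submodule.sum_mem _ fun i _ => Submodule.subset_span ⟨i, a, 1, rfl⟩

theorem m_mem_rad {x : S.X} (hx : x ≠ S.o) : S.m x ∈ S.rad := by
  have : S.m x = ∑ a, S.m x * S.eps a := by rw [← Finset.mul_sum, S.sum_eps, mul_one]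
  rw [this]
  refine Submodule.sum_mem _ fun a _ => ?_
  rw [← S.bas_apply (x, a)]
  exact Submodule.subset_span ⟨(x, a), hx, rfl⟩

theorem nil_of_mem {v : H} (hv : v ∈ S.rad) : IsNilpotent v := by
  obtain ⟨n, hn⟩ := S.rad_nil
  refine ⟨n, ?_⟩
  have : v ^ n ∈ S.rad ^ n := Submodule.pow_mem_pow _ hv n
  rw [hn] at this
  exact this

/-- the coordinate of the top monomial -/
theorem repr_comp (x : S.X) (a : ZMod e) (v : H) :
    S.bas.repr (S.m (S.comp x) * v) (S.top, a) = S.bas.repr v (x, a) := by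
  classical
  have h2 : (Finsupp.lapply (S.top, a) ∘ₗ (S.bas.repr : H →ₗ[k] _ →₀ k) ∘ₗ
      LinearMap.mulLeft k (S.m (S.comp x)))
      = (Finsupp.lapply (x, a) ∘ₗ (S.bas.repr : H →ₗ[k] _ →₀ k)) := by
    refine S.bas.ext ?_
    rintro ⟨x', a'⟩
    simp only [LinearMap.coe_comp, Function.comp_apply, LinearMap.mulLeft_apply,
        LinearEquiv.coe_coe, Finsupp.lapply_apply, Basis.repr_self]
    rw [bas_apply, ← mul_assoc]
    have hd := S.dual x x'
    rcases S.m_mul (S.comp x) x' with h0 | ⟨z, hz, _, _⟩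
    · rw [h0, zero_mul, map_zero]
      rw [h0] at hd
      have h3 : x' ≠ x := fun h => S.m_ne_zero S.top (hd.mpr h).symm
      rw [Finsupp.single_apply, if_neg]
      · rfl
      · intro h
        exact h3 (Prod.ext_iff.mp h).1
    · rw [hz] at hd ⊢
      rw [← S.bas_apply (z, a'), Basis.repr_self, Finsupp.single_apply, Finsupp.single_apply]
      refine if_congr ?_ rfl rfl
      rw [Prod.mk.injEq, Prod.mk.injEq, ← hd]
      constructor
      · rintro ⟨h1, h2⟩; exact ⟨by rw [h1], h2⟩
      · rintro ⟨h1, h2⟩; exact ⟨S.m_inj h1, h2⟩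
  have h3 := LinearMap.congr_fun h2 v
  simpa using h3

/-- an element spanning a left ideal lies in the top degree -/
theorem top_mem {s : H} (hs : ∀ h : H, ∃ l : k, h * s = l • s) :
    s ∈ S.gr ((N : ℚ) - 1) := by
  by_cases hs0 : s = 0
  · rw [hs0]; exact Submodule.zero_mem _
  have h1 : ∀ x, x ≠ S.o → S.m x * s = 0 := by
    intro x hx
    obtain ⟨l, hl⟩ := hs (S.m x)
    obtain ⟨n, hn⟩ := S.nil_of_mem (S.m_mem_rad hx)
    have h2 : ∀ j : ℕ, S.m x ^ j * s = l ^ j • s := by
      intro j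
      induction j with
      | zero => simp
      | succ j ih => rw [pow_succ, mul_assoc, hl, mul_smul_comm, ih, smul_smul, pow_succ, mul_comm]
    have h3 := h2 n
    rw [hn, zero_mul] at h3
    have h4 : l ^ n = 0 := by
      rcases smul_eq_zero.mp h3.symm with h | h
      · exact h
      · exact absurd h hs0
    have h5 : l = 0 := by
      by_contra hc
      exact pow_ne_zero n hc h4
    rw [hl, h5, zero_smul]
  unfold gr
  rw [mem_grd]
  rintro ⟨x, a⟩ hy
  by_cases hx : x = S.top
  · show (S.deg x : ℚ) = (N : ℚ) - 1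
    have h6 : ((S.deg S.top + 1 : ℕ) : ℚ) = (N : ℚ) := by rw [S.deg_top]
    rw [hx, ← h6]
    push_cast; ring
  · exfalso
    apply hy
    rw [← S.repr_comp, h1, map_zero]
    · rfl
    · intro hc
      apply hx
      have h6 : S.m (S.comp x) * S.m x = S.m S.top := (S.dual x x).mpr rfl
      rw [hc, S.m_o, one_mul] at h6
      exact S.m_inj h6

end GDat


end P179H342
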