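import Vale.Agent.P179.H342.R1
import Vale.Agent.P179.H342.K2d
import Vale.Agent.P179.H190.KD5

/-!
# Relative version, part 2: monomial eigenbasis of `k[D2]` for any action
-/

namespace P179H342

open Module Vale.P179.H190

universe u v

/-- monomial eigenbasis of `k[D]` for an automorphism `τ` of order dividing `e` -/
structure M2Dat (k D : Type) [Field k] [CommGroup D] (τ : MulAut D) (ζ : k) where
  ι : Type
  fin : Fintype ι
  z : ι → MonoidAlgebra k D
  q : ι → ℕ
  wt : ι → ℕ
  q_pos : ∀ i, 1 ≤ q i
  z_pow : ∀ i, z i ^ q i = 0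
  z_eig : ∀ i, MonoidAlgebra.domCongr k k τ (z i) = ζ ^ wt i • z i
  li : LinearIndependent k fun b : (i : ι) → Fin (q i) => mono z fun i => (b i : ℕ)
  sp : ⊤ ≤ Submodule.span k (Set.range fun b : (i : ι) → Fin (q i) => mono z fun i => (b i : ℕ))

theorem exists_m2dat (p : ℕ) [Fact p.Prime] (k : Type) [Field k] [CharP k p]
    (D : Type) [CommGroup D] [Finite D] (hD : IsPGroup p D) (t : MulAut D)
    (e : ℕ) (hte : t ^ e = 1) (he : (e : k) ≠ 0) (ζ : k) (hζ : IsPrimitiveRoot ζ e) :
    Nonempty (M2Dat k D t ζ) := by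
  classical
  have hp : p.Prime := Fact.out
  obtain ⟨C⟩ := nonempty_coord k D p hD
  obtain ⟨ρ, hρ, z, lev, w, hzJ, hzal, hzspan, hlev⟩ :=
    C.extension hte he hζ (m := 0) (fun _ => Nat.zero_le _) (L := 0) (fun j => j.elim0)
      (fun j => j.elim0) (fun j => j.elim0) (fun j => j.elim0) linearIndependent_empty_type
  set q : ρ → ℕ := fun r => p ^ lev r with hq
  have hZq : ∀ i, z i ^ q i = 0 := fun r => J_pow (hzJ r)
  have hgen : Algebra.adjoin k (Set.range z) = ⊤ := by
    refine P179H342.adjoin_eq_top (KI k D) (KI_nilpotent C) ?_ z ?_ ?_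
    · intro a
      refine ⟨aug k D a, ?_⟩
      rw [mem_KI, mem_K, map_sub, AlgHom.commutes, Algebra.algebraMap_self, RingHom.id_apply,
        sub_self]
    · intro r
      exact mem_KI.2 (J_le_K p _ (hzJ r))
    · intro x hx
      obtain ⟨l, l', hl⟩ := hzspan x (mem_KI.1 hx)
      refine ⟨l', ?_⟩
      have h0 : ∑ j : Fin 0, l j • (fun j : Fin 0 => (j.elim0 : MonoidAlgebra k D)) j = 0 := by
        simp
      have := KK_sub_KI hl
      rwa [Finset.univ_eq_empty, Finset.sum_empty, zero_add] at this
  have hprod : ∏ i, q i = p ^ (∑ r, lev r) := by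
    simp only [hq]
    rw [Finset.prod_pow_eq_pow_sum]
  have hcard : ∏ i, q i = Module.finrank k (MonoidAlgebra k D) := by
    apply le_antisymm
    · rw [hprod, finrank_A, C.card]
      exact Nat.pow_le_pow_right hp.pos (by simpa using hlev)
    · have h1 := P179H342.span_mono_eq_top z hgen q hZq
      have h2 := finrank_range_le_card (R := k)
        (b := fun a : (i : ρ) → Fin (q i) => P179H342.mono z fun i => (a i : ℕ))
      rw [Set.finrank, top_le_iff.1 h1, finrank_top, Fintype.card_pi] at h2
      simpa using h2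
  set bas := P179H342.monoBasis z hgen q hZq hcard with hbas
  have hbasap : (fun b : (i : ρ) → Fin (q i) => mono z fun i => (b i : ℕ)) = bas := by
    funext b
    exact (P179H342.monoBasis_apply z hgen q hZq hcard b).symm
  exact ⟨{
    ι := ρ
    fin := hρ
    z := z
    q := q
    wt := w
    q_pos := fun r => Nat.one_le_iff_ne_zero.2 (pow_ne_zero _ hp.ne_zero)
    z_pow := hZq
    z_eig := hzal
    li := by rw [hbasap]; exact bas.linearIndependent
    sp := by rw [hbasap, bas.span_eq] }⟩

end P179H342
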