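import Vale.Agent.P179.H342.R2

/-!
# Relative version, part 3: `GDat` for the group algebra of `(D1 x D2) : T`
-/

namespace P179H342

open Module

theorem card_conv {X Y : Type*} [Finite X] [Finite Y] {e : ℕ} [NeZero e] (D : X → Prop)
    (f : X → ZMod e) (g : Y → ZMod e) (s : ZMod e) :
    Nat.card {q : X × Y // D q.1 ∧ f q.1 + g q.2 = s} =
      ∑ c, Nat.card {x // D x ∧ f x = c} * Nat.card {y // g y = s - c} := by
  have h : {q : X × Y // D q.1 ∧ f q.1 + g q.2 = s} ≃
      Σ c : ZMod e, {x // D x ∧ f x = c} × {y // g y = s - c} :=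
    { toFun := fun q => ⟨f q.1.1, ⟨q.1.1, q.2.1, rfl⟩, ⟨q.1.2, eq_sub_of_add_eq' q.2.2⟩⟩
      invFun := fun r => ⟨(r.2.1.1, r.2.2.1), r.2.1.2.1, by
        rw [r.2.1.2.2, r.2.2.2]; ring⟩
      left_inv := fun q => rfl
      right_inv := fun r => by
        obtain ⟨c, ⟨x, hx1, hx2⟩, ⟨y, hy⟩⟩ := r
        subst hx2
        rfl }
  rw [Nat.card_congr h, Nat.card_sigma]
  refine Finset.sum_congr rfl fun c _ => ?_
  rw [Nat.card_prod]

section Main

variable {k : Type} [Field k] {D1 D2 Γ : Type} [CommGroup D1] [CommGroup D2] [Group Γ]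
  {e : ℕ} {τ1 : MulAut D1} {τ2 : MulAut D2} (S1 : K1Dat k D1 τ1 e) (S2 : M2Dat k D2 τ2 S1.ζ)

attribute [instance] M2Dat.fin

/-- the index set of the monomials -/
abbrev M2Dat.box {k D : Type} [Field k] [CommGroup D] {τ : MulAut D} {ζ : k} (S : M2Dat k D τ ζ) :
    Type := (i : S.ι) → Fin (S.q i)

/-- multiplicities of the characters of `T` in `k[D2]` -/
noncomputable def M2Dat.P {k D : Type} [Field k] [CommGroup D] {τ : MulAut D} {ζ : k}
    (S : M2Dat k D τ ζ) {e : ℕ} (c : ZMod e) : ℕ :=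
  Nat.card {y : S.box // ((∑ i, (y i : ℕ) * S.wt i : ℕ) : ZMod e) = c}

theorem M2Dat.mono_cases {k D : Type} [Field k] [CommGroup D] {τ : MulAut D} {ζ : k}
    (S : M2Dat k D τ ζ) (a : S.ι → ℕ) : mono S.z a = 0 ∨ ∀ i, a i < S.q i := by
  by_cases h : ∀ i, a i < S.q i
  · exact Or.inr h
  · push Not at h
    obtain ⟨i, hi⟩ := h
    exact Or.inl (mono_eq_zero S.z a S.q S.z_pow hi)

variable [NeZero e] (he : (e : k) ≠ 0) (j1 : D1 →* Γ) (j2 : D2 →* Γ) (t : Γ)
  (ht1 : ∀ d, t * j1 d = j1 (τ1 d) * t) (ht2 : ∀ d, t * j2 d = j2 (τ2 d) * t)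
  (hc : ∀ x y, j1 x * j2 y = j2 y * j1 x) (hte : t ^ e = 1)
  (hsp : ∀ g : Γ, ∃ (x : D1) (y : D2) (i : ℕ), g = j1 x * j2 y * t ^ i)

omit [NeZero e] in
include hc in
theorem io_comm (a : MonoidAlgebra k D1) (b : MonoidAlgebra k D2) :
    io k j1 a * io k j2 b = io k j2 b * io k j1 a := by
  induction a using MonoidAlgebra.induction_linear with
  | zero => simp
  | add x y hx hy => rw [map_add, add_mul, hx, hy, mul_add]
  | single d r =>
    induction b using MonoidAlgebra.induction_linear with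
    | zero => simp
    | add x y hx hy => rw [map_add, mul_add, hx, hy, add_mul]
    | single d' r' =>
      rw [io_single, io_single, MonoidAlgebra.single_mul_single, MonoidAlgebra.single_mul_single,
        hc, mul_comm r r']

include ht1 ht2 in
theorem T_mono2 (b : S1.ι → ℕ) (b' : S2.ι → ℕ) :
    (MonoidAlgebra.single t 1 : MonoidAlgebra k Γ) * (io k j1 (mono S1.z b) * io k j2 (mono S2.z b'))
      = S1.χ (((∑ i, b i * S1.wt i : ℕ) : ZMod e) + ((∑ i, b' i * S2.wt i : ℕ) : ZMod e)) •
        ((io k j1 (mono S1.z b) * io k j2 (mono S2.z b')) * MonoidAlgebra.single t 1) := by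
  have h1 := T_mono S1 j1 t ht1 b
  have h2 : (MonoidAlgebra.single t 1 : MonoidAlgebra k Γ) * io k j2 (mono S2.z b')
      = S1.χ ((∑ i, b' i * S2.wt i : ℕ) : ZMod e) •
        (io k j2 (mono S2.z b') * MonoidAlgebra.single t 1) := by
    rw [T_io j2 t ht2]
    have h := eig_mono (MonoidAlgebra.domCongr k k τ2).toAlgHom S2.z S1.ζ S2.wt S2.z_eig b'
    have h' : MonoidAlgebra.domCongr k k τ2 (mono S2.z b')
      = S1.ζ ^ (∑ i, b' i * S2.wt i) • mono S2.z b' := h
    rw [h', map_smul, smul_mul_assoc, K1Dat.χ, AddChar.zmodChar_apply']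
  rw [← mul_assoc, h1, smul_mul_assoc, mul_assoc, h2, mul_smul_comm, smul_smul, mul_assoc,
    ← AddChar.map_add_eq_mul]

include he hte hsp in
theorem top_le_span2 :
    ⊤ ≤ Submodule.span k (Set.range fun y : (S1.box × S2.box) × ZMod e =>
      (io k j1 (mono S1.z fun i => (y.1.1 i : ℕ)) * io k j2 (mono S2.z fun i => (y.1.2 i : ℕ))) *
        ide S1.χ (MonoidAlgebra.single t 1) y.2) := by
  set U := Submodule.span k (Set.range fun y : (S1.box × S2.box) × ZMod e =>
      (io k j1 (mono S1.z fun i => (y.1.1 i : ℕ)) * io k j2 (mono S2.z fun i => (y.1.2 i : ℕ))) *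
        ide S1.χ (MonoidAlgebra.single t 1 : MonoidAlgebra k Γ) y.2) with hU
  have hχ : (S1.χ).IsPrimitive := AddChar.zmodChar_primitive_of_primitive_root e S1.prim
  have h1 : ∀ (a : MonoidAlgebra k D1) (a' : MonoidAlgebra k D2) (b : ZMod e),
      (io k j1 a * io k j2 a') * ide S1.χ (MonoidAlgebra.single t 1) b ∈ U := by
    intro a a' b
    have ha : a ∈ Submodule.span k (Set.range fun b : S1.box => mono S1.z fun i => (b i : ℕ)) :=
      S1.sp Submodule.mem_top
    have ha' : a' ∈ Submodule.span k (Set.range fun b : S2.box => mono S2.z fun i => (b i : ℕ)) :=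
      S2.sp Submodule.mem_top
    induction ha using Submodule.span_induction with
    | zero => rw [map_zero, zero_mul, zero_mul]; exact Submodule.zero_mem _
    | add u v _ _ hu hv => rw [map_add, add_mul, add_mul]; exact Submodule.add_mem _ hu hv
    | smul r u _ hu =>
      rw [map_smul, smul_mul_assoc, smul_mul_assoc]; exact Submodule.smul_mem _ _ hu
    | mem u hu =>
      obtain ⟨x, rfl⟩ := hu
      induction ha' using Submodule.span_induction with
      | zero => rw [map_zero, mul_zero, zero_mul]; exact Submodule.zero_mem _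
      | add u v _ _ hu hv => rw [map_add, mul_add, add_mul]; exact Submodule.add_mem _ hu hv
      | smul r u _ hu =>
        rw [map_smul, mul_smul_comm, smul_mul_assoc]; exact Submodule.smul_mem _ _ hu
      | mem u hu =>
        obtain ⟨y, rfl⟩ := hu
        exact Submodule.subset_span ⟨((x, y), b), rfl⟩
  intro v _
  induction v using MonoidAlgebra.induction_linear with
  | zero => exact Submodule.zero_mem _
  | add x y hx hy => exact Submodule.add_mem _ (hx trivial) (hy trivial)
  | single g r =>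
    obtain ⟨d, d', i, rfl⟩ := hsp g
    have h2 : (MonoidAlgebra.single (j1 d * j2 d' * t ^ i) r : MonoidAlgebra k Γ)
        = (io k j1 (MonoidAlgebra.single d r) * io k j2 (MonoidAlgebra.single d' 1)) *
          uu (MonoidAlgebra.single t 1) (i : ZMod e) := by
      rw [uu_nat (T_pow t hte), io_single, io_single, MonoidAlgebra.single_pow, one_pow,
        MonoidAlgebra.single_mul_single, MonoidAlgebra.single_mul_single, mul_one, mul_one]
    rw [h2, uu_eq_sum he hχ (T_pow t hte), Finset.mul_sum]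
    refine Submodule.sum_mem _ fun a _ => ?_
    rw [mul_smul_comm]
    exact Submodule.smul_mem _ _ (h1 _ _ a)

/-- the multiplicities -/
noncomputable def num2 (w : ℕ) (s : ZMod e) : ℕ :=
  ∑ c, ((if (w : ZMod e) = c then 1 else 0) + S1.c) * S2.P (s - c)

/-- the structure `GDat` for the group algebra of `(D1 x D2) : T` -/
noncomputable def gdat [Fintype D1] [Fintype D2] [Fintype Γ]
    (hcard : Fintype.card Γ = Fintype.card D1 * Fintype.card D2 * e)
    (he : (e : k) ≠ 0) (ht1 : ∀ d, t * j1 d = j1 (τ1 d) * t) (ht2 : ∀ d, t * j2 d = j2 (τ2 d) * t)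
    (hc : ∀ x y, j1 x * j2 y = j2 y * j1 x) (hte : t ^ e = 1)
    (hsp : ∀ g : Γ, ∃ (x : D1) (y : D2) (i : ℕ), g = j1 x * j2 y * t ^ i) :
    GDat k (MonoidAlgebra k Γ) e S1.N (num2 S1 S2) := by
  classical
  have hχ : (S1.χ).IsPrimitive := AddChar.zmodChar_primitive_of_primitive_root e S1.prim
  have hsp' := top_le_span2 S1 S2 he j1 j2 t hte hsp
  have hX : Fintype.card S1.box = Fintype.card D1 := by
    rw [← finrank_ma k D1, Module.finrank_eq_card_basis (Basis.mk S1.li S1.sp)]
  have hX2 : Fintype.card S2.box = Fintype.card D2 := by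
    rw [← finrank_ma k D2, Module.finrank_eq_card_basis (Basis.mk S2.li S2.sp)]
  have hli : LinearIndependent k fun y : (S1.box × S2.box) × ZMod e =>
      (io k j1 (mono S1.z fun i => (y.1.1 i : ℕ)) * io k j2 (mono S2.z fun i => (y.1.2 i : ℕ))) *
        ide S1.χ (MonoidAlgebra.single t 1 : MonoidAlgebra k Γ) y.2 := by
    refine linearIndependent_of_top_le_span_of_card_eq_finrank hsp' ?_
    rw [finrank_ma k Γ, hcard, Fintype.card_prod, Fintype.card_prod, hX, hX2, ZMod.card]
  have hinj : ∀ x x' : S1.box × S2.box,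
      (io k j1 (mono S1.z fun i => (x.1 i : ℕ)) * io k j2 (mono S2.z fun i => (x.2 i : ℕ)) :
        MonoidAlgebra k Γ)
      = io k j1 (mono S1.z fun i => (x'.1 i : ℕ)) * io k j2 (mono S2.z fun i => (x'.2 i : ℕ)) →
      x = x' := by
    intro x x' h
    have h1 := hli.injective (a₁ := (x, 0)) (a₂ := (x', 0)) (by simp only [h])
    exact (Prod.ext_iff.mp h1).1
  have hne : ∀ x : S1.box × S2.box,
      (io k j1 (mono S1.z fun i => (x.1 i : ℕ)) * io k j2 (mono S2.z fun i => (x.2 i : ℕ)) :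
        MonoidAlgebra k Γ) ≠ 0 := by
    intro x h
    apply hli.ne_zero (x, 0)
    simp only [h, zero_mul]
  have hmul : ∀ (a b : S1.ι → ℕ) (a' b' : S2.ι → ℕ),
      (io k j1 (mono S1.z a) * io k j2 (mono S2.z a')) *
        (io k j1 (mono S1.z b) * io k j2 (mono S2.z b') : MonoidAlgebra k Γ)
      = io k j1 (mono S1.z (a + b)) * io k j2 (mono S2.z (a' + b')) := by
    intro a b a' b'
    rw [mono_add, mono_add, map_mul, map_mul]
    have := io_comm (k := k) j1 j2 hc (mono S1.z b) (mono S2.z a')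
    calc _ = io k j1 (mono S1.z a) * (io k j2 (mono S2.z a') * io k j1 (mono S1.z b)) *
          io k j2 (mono S2.z b') := by simp only [mul_assoc]
      _ = _ := by rw [← this]; simp only [mul_assoc]
  exact
  { X := S1.box × S2.box
    fin := inferInstance
    m := fun b => io k j1 (mono S1.z fun i => (b.1 i : ℕ)) * io k j2 (mono S2.z fun i => (b.2 i : ℕ))
    eps := fun a => ide S1.χ (MonoidAlgebra.single t 1) a
    deg := fun b => ∑ i, (b.1 i : ℕ) * S1.dg i
    rk := fun b => ∑ i, (b.1 i : ℕ) + ∑ i, (b.2 i : ℕ)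
    wt := fun b => ((∑ i, (b.1 i : ℕ) * S1.wt i : ℕ) : ZMod e) +
      ((∑ i, (b.2 i : ℕ) * S2.wt i : ℕ) : ZMod e)
    o := (fun i => ⟨0, S1.q_pos i⟩, fun i => ⟨0, S2.q_pos i⟩)
    top := (fun i => ⟨S1.q i - 1, Nat.sub_lt (S1.q_pos i) one_pos⟩,
      fun i => ⟨S2.q i - 1, Nat.sub_lt (S2.q_pos i) one_pos⟩)
    comp := fun b => (fun i => ⟨S1.q i - 1 - (b.1 i : ℕ), lt_of_le_of_lt (Nat.sub_le _ _)
      (Nat.sub_lt (S1.q_pos i) one_pos)⟩,
      fun i => ⟨S2.q i - 1 - (b.2 i : ℕ), lt_of_le_of_lt (Nat.sub_le _ _)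
      (Nat.sub_lt (S2.q_pos i) one_pos)⟩)
    li := hli
    sp := hsp'
    idem := fun a b => ide_mul he hχ (T_pow t hte) a b
    sum_eps := sum_ide he hχ
    eps_m := fun a x => ide_comm _ _ (T_mono2 S1 S2 j1 j2 t ht1 ht2 _ _) a
    m_o := by
      have h : mono S1.z (fun i => ((⟨0, S1.q_pos i⟩ : Fin (S1.q i)) : ℕ)) = 1 := mono_zero S1.z
      have h' : mono S2.z (fun i => ((⟨0, S2.q_pos i⟩ : Fin (S2.q i)) : ℕ)) = 1 := mono_zero S2.z
      show io k j1 (mono S1.z (fun i => ((⟨0, S1.q_pos i⟩ : Fin (S1.q i)) : ℕ))) *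
        io k j2 (mono S2.z (fun i => ((⟨0, S2.q_pos i⟩ : Fin (S2.q i)) : ℕ))) = 1
      rw [h, h', map_one, map_one, one_mul]
    deg_o := by simp
    rk_pos := fun x hx => by
      by_contra hcon
      apply hx
      have h1 : ∑ i, (x.1 i : ℕ) = 0 := by omega
      have h2 : ∑ i, (x.2 i : ℕ) = 0 := by omega
      refine Prod.ext ?_ ?_
      · funext i
        apply Fin.ext
        exact (Finset.sum_eq_zero_iff.mp h1) i (Finset.mem_univ i)
      · funext i
        apply Fin.ext
        exact (Finset.sum_eq_zero_iff.mp h2) i (Finset.mem_univ i)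
    m_mul := fun x y => by
      rw [hmul]
      rcases S1.mono_cases ((fun i => (x.1 i : ℕ)) + fun i => (y.1 i : ℕ)) with h | h
      · left; rw [h, map_zero, zero_mul]
      rcases S2.mono_cases ((fun i => (x.2 i : ℕ)) + fun i => (y.2 i : ℕ)) with h' | h'
      · left; rw [h', map_zero, mul_zero]
      · right
        refine ⟨(fun i => ⟨_, h i⟩, fun i => ⟨_, h' i⟩), rfl, ?_, ?_⟩
        · show ∑ i, ((x.1 i : ℕ) + (y.1 i : ℕ)) * S1.dg i = _
          simp only [add_mul, Finset.sum_add_distrib]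
        · show ∑ i, ((x.1 i : ℕ) + (y.1 i : ℕ)) + ∑ i, ((x.2 i : ℕ) + (y.2 i : ℕ)) = _
          rw [Finset.sum_add_distrib, Finset.sum_add_distrib]
          ring
    dual := fun x y => by
      rw [hmul]
      have hx1 := fun i => (x.1 i).2
      have hx2 := fun i => (x.2 i).2
      constructor
      · intro h
        rcases S1.mono_cases ((fun i => S1.q i - 1 - (x.1 i : ℕ)) + fun i => (y.1 i : ℕ)) with h0 | h0
        · exfalso
          apply hne (fun i => ⟨S1.q i - 1, Nat.sub_lt (S1.q_pos i) one_pos⟩,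
            fun i => ⟨S2.q i - 1, Nat.sub_lt (S2.q_pos i) one_pos⟩)
          rw [← h]
          show io k j1 (mono S1.z ((fun i => S1.q i - 1 - (x.1 i : ℕ)) + fun i => (y.1 i : ℕ))) * _ = 0
          rw [h0, map_zero, zero_mul]
        rcases S2.mono_cases ((fun i => S2.q i - 1 - (x.2 i : ℕ)) + fun i => (y.2 i : ℕ)) with h0' | h0'
        · exfalso
          apply hne (fun i => ⟨S1.q i - 1, Nat.sub_lt (S1.q_pos i) one_pos⟩,
            fun i => ⟨S2.q i - 1, Nat.sub_lt (S2.q_pos i) one_pos⟩)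
          rw [← h]
          show _ * io k j2 (mono S2.z ((fun i => S2.q i - 1 - (x.2 i : ℕ)) + fun i => (y.2 i : ℕ))) = 0
          rw [h0', map_zero, mul_zero]
        have h3 := hinj (fun i => ⟨_, h0 i⟩, fun i => ⟨_, h0' i⟩)
          (fun i => ⟨S1.q i - 1, Nat.sub_lt (S1.q_pos i) one_pos⟩,
            fun i => ⟨S2.q i - 1, Nat.sub_lt (S2.q_pos i) one_pos⟩) h
        obtain ⟨h4, h5⟩ := Prod.ext_iff.mp h3
        refine Prod.ext ?_ ?_
        · funext i
          apply Fin.ext
          have h6 : S1.q i - 1 - (x.1 i : ℕ) + (y.1 i : ℕ) = S1.q i - 1 :=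
            congrArg Fin.val (congrFun h4 i)
          have := hx1 i
          omega
        · funext i
          apply Fin.ext
          have h6 : S2.q i - 1 - (x.2 i : ℕ) + (y.2 i : ℕ) = S2.q i - 1 :=
            congrArg Fin.val (congrFun h5 i)
          have := hx2 i
          omega
      · rintro rfl
        congr 3
        · funext i
          have h6 := hx1 i
          show S1.q i - 1 - (y.1 i : ℕ) + (y.1 i : ℕ) = S1.q i - 1
          omega
        · funext i
          have h6 := hx2 i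
          show S2.q i - 1 - (y.2 i : ℕ) + (y.2 i : ℕ) = S2.q i - 1
          omega
    deg_top := S1.top
    count := fun w s => by
      have h := card_conv (X := S1.box) (Y := S2.box) (fun x => ∑ i, (x i : ℕ) * S1.dg i = w)
        (fun x => ((∑ i, (x i : ℕ) * S1.wt i : ℕ) : ZMod e))
        (fun y => ((∑ i, (y i : ℕ) * S2.wt i : ℕ) : ZMod e)) s
      refine h.trans ?_
      split_ifs with hw
      · unfold num2
        refine Finset.sum_congr rfl fun c _ => ?_
        rw [S1.count w c, if_pos hw]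
        rfl
      · refine Finset.sum_eq_zero fun c _ => ?_
        rw [S1.count w c, if_neg hw, zero_mul] }

end Main

end P179H342
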