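import Vale.Agent.P179.H342.R3
import Vale.Agent.P179.H342.S4AFinal
import Vale.Agent.P179.H737.RPEig

/-!
# Relative version, part 4: the structure `RGr` and module S4A relative to `D2`
-/

namespace P179H342

open Module Vale.P179.H175 Vale.P179.H904 Vale.P179.H190

/-- The grading of `A = k[Γ]`, `Γ = (D1 × D2) ⋊ ⟨t⟩`, by `k[D1]` only: `k[D2]` and `t` have degree
`0`; `P c` is the multiplicity of the character `c` of `⟨t⟩` in `k[D2]`. -/
structure RGr (k A Γ : Type) [Field k] [Ring A] [Algebra k A] [Group Γ] [Fintype Γ]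
    (γ : Γ →* A) (D2 : Subgroup Γ) (t : Γ) (e M c : ℕ) [NeZero e] where
  /-- the grading -/
  W : ℚ → Submodule k A
  /-- the radical -/
  J : Submodule k A
  /-- the primitive idempotents -/
  ε : ZMod e → A
  /-- multiplicities of the characters in `k[D2]` -/
  P : ZMod e → ℕ
  hM : ∃ q : ℕ, 1 ≤ q ∧ M = e * q + 1
  basic : Basic W J ε
  sum : ∑ a, ε a = 1
  orth : ∀ a b, a ≠ b → ε a * ε b = 0
  supp : ∀ r : ℚ, (∀ w : ℕ, w < M → r ≠ w) → W r = ⊥
  hP : Vale.P179.H737.R.PEig P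
  dim : ∀ a b, gd W (cor2 k (ε a) (ε b)) =
    ∑ s, CHz e M c a s * AddMonoidAlgebra.single (0 : ℚ) ((P (b - s) : ℕ) : ℤ)
  top : ∑ g, γ g ∈ W ((M : ℚ) - 1)
  deg0 : ∀ x ∈ D2, γ x ∈ W 0
  degt : γ t ∈ W 0

/-- `Γ = (D1 × D2) ⋊ ⟨t⟩`, `D1 ≠ 1` and `D2` abelian `p`-groups, `t` of order `e` acting freely on
`D1 - 1` -/
structure FreeCycR (p : ℕ) (Γ : Type) [Group Γ] (D1 D2 : Subgroup Γ) (t : Γ) (e : ℕ) : Prop where
  n1 : D1.Normal
  n2 : D2.Normal
  p1 : IsPGroup p D1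
  p2 : IsPGroup p D2
  comm : ∀ x ∈ D1 ⊔ D2, ∀ y ∈ D1 ⊔ D2, x * y = y * x
  disj : D1 ⊓ D2 = ⊥
  ne : D1 ≠ ⊥
  ord : orderOf t = e
  compl : Subgroup.IsComplement' (D1 ⊔ D2) (Subgroup.zpowers t)
  free : ∀ (i : ℕ), ∀ d ∈ D1, d ≠ 1 → t ^ i * d = d * t ^ i → e ∣ i

/-- module S4A relative to `D2` -/
def S4AR : Prop := ∀ (p : ℕ) [Fact p.Prime] (k : Type) [Field k] [IsAlgClosed k] [CharP k p]
  (Γ : Type) [Group Γ] [Fintype Γ] (D1 D2 : Subgroup Γ) (t : Γ) (e : ℕ) [NeZero e],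
  FreeCycR p Γ D1 D2 t e →
  ∃ M c : ℕ, Nonempty (RGr k (MonoidAlgebra k Γ) Γ (MonoidAlgebra.of k Γ) D2 t e M c)

/-- the multiplicities as dimensions of eigenspaces -/
theorem M2Dat.P_eq {k D : Type} [Field k] [CommGroup D] [Finite D] {τ : MulAut D} {ζ : k}
    (S : M2Dat k D τ ζ) {e : ℕ} [NeZero e] (hζ : IsPrimitiveRoot ζ e) (c : ZMod e) :
    S.P c = Module.finrank k ((alE k τ).eigenspace (ζ ^ c.val)) := by
  classical
  have hb : ∀ b : S.box, alE k τ ((Basis.mk S.li S.sp) b) =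
      ζ ^ (∑ i, (b i : ℕ) * S.wt i) • (Basis.mk S.li S.sp) b := by
    intro b
    rw [Basis.mk_apply]
    exact eig_mono (MonoidAlgebra.domCongr k k τ).toAlgHom S.z ζ S.wt S.z_eig _
  rw [finrank_eigenspace (Basis.mk S.li S.sp) (alE k τ) _ hb (ζ ^ c.val)]
  refine Nat.card_congr (Equiv.subtypeEquivRight fun b => ?_)
  rw [root_pow_eq_iff hζ, ZMod.natCast_zmod_val]

section

variable {k : Type} [Field k] {D1 D2 Γ : Type} [CommGroup D1] [CommGroup D2] [Group Γ]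
  {e : ℕ} {τ1 : MulAut D1} {τ2 : MulAut D2} (S1 : K1Dat k D1 τ1 e) (S2 : M2Dat k D2 τ2 S1.ζ)
  [NeZero e] (j1 : D1 →* Γ) (j2 : D2 →* Γ) (t : Γ) [Fintype D1] [Fintype D2] [Fintype Γ]
    (hcard : Fintype.card Γ = Fintype.card D1 * Fintype.card D2 * e)
    (he : (e : k) ≠ 0) (ht1 : ∀ d, t * j1 d = j1 (τ1 d) * t) (ht2 : ∀ d, t * j2 d = j2 (τ2 d) * t)
    (hc : ∀ x y, j1 x * j2 y = j2 y * j1 x) (hte : t ^ e = 1)
    (hsp : ∀ g : Γ, ∃ (x : D1) (y : D2) (i : ℕ), g = j1 x * j2 y * t ^ i)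

theorem gdat_deg0 (a : MonoidAlgebra k D2) :
    io k j2 a ∈ (gdat S1 S2 j1 j2 t hcard he ht1 ht2 hc hte hsp).gr (0 : ℚ) := by
  set G := gdat S1 S2 j1 j2 t hcard he ht1 ht2 hc hte hsp with hG
  have ha : a ∈ Submodule.span k (Set.range fun b : S2.box => mono S2.z fun i => (b i : ℕ)) :=
    S2.sp Submodule.mem_top
  induction ha using Submodule.span_induction with
  | zero => rw [map_zero]; exact Submodule.zero_mem _
  | add u v _ _ hu hv => rw [map_add]; exact Submodule.add_mem _ hu hv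
  | smul r u _ hu => rw [map_smul]; exact Submodule.smul_mem _ _ hu
  | mem u hu =>
    obtain ⟨y, rfl⟩ := hu
    have h1 := G.m_mem (Δ := ℚ) ((fun i => ⟨0, S1.q_pos i⟩, y) : S1.box × S2.box)
    have h2 : G.m ((fun i => ⟨0, S1.q_pos i⟩, y) : S1.box × S2.box)
        = io k j2 (mono S2.z fun i => (y i : ℕ)) := by
      show io k j1 (mono S1.z (fun i => ((⟨0, S1.q_pos i⟩ : Fin (S1.q i)) : ℕ))) *
        io k j2 (mono S2.z fun i => (y i : ℕ)) = _
      have h : mono S1.z (fun i => ((⟨0, S1.q_pos i⟩ : Fin (S1.q i)) : ℕ)) = 1 := mono_zero S1.z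
      rw [h, map_one, one_mul]
    have h3 : G.deg ((fun i => ⟨0, S1.q_pos i⟩, y) : S1.box × S2.box) = 0 := by
      show ∑ i, ((⟨0, S1.q_pos i⟩ : Fin (S1.q i)) : ℕ) * S1.dg i = 0
      simp
    rw [h2, h3, Nat.cast_zero] at h1
    exact h1

theorem gdat_degt :
    (MonoidAlgebra.single t 1 : MonoidAlgebra k Γ) ∈
      (gdat S1 S2 j1 j2 t hcard he ht1 ht2 hc hte hsp).gr (0 : ℚ) := by
  set G := gdat S1 S2 j1 j2 t hcard he ht1 ht2 hc hte hsp with hG
  have hχ : (S1.χ).IsPrimitive := AddChar.zmodChar_primitive_of_primitive_root e S1.prim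
  have h1 := uu_eq_sum (T := (MonoidAlgebra.single t 1 : MonoidAlgebra k Γ)) he hχ
    (T_pow t hte) ((1 : ℕ) : ZMod e)
  rw [uu_nat (T_pow t hte), pow_one] at h1
  rw [h1]
  exact Submodule.sum_mem _ fun a _ => Submodule.smul_mem _ _ (G.eps_mem a)

end

theorem s4ar_of (hbr : ∀ (k : Type) [Field k] (D : Type) [CommGroup D] [Finite D] (τ : MulAut D)
    (e : ℕ) [NeZero e], τ ^ e = 1 → (e : k) ≠ 0 → ∀ ζ : k, IsPrimitiveRoot ζ e →
    Vale.P179.H737.R.PEig fun c : ZMod e => finrank k ((alE k τ).eigenspace (ζ ^ c.val))) :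
    S4AR := by
  intro p _ k _ _ _ Γ _ _ D1 D2 t e _ hF
  have he : e ≠ 0 := NeZero.ne e
  have := hF.n1
  have := hF.n2
  let _ : CommGroup D1 := { (inferInstance : Group D1) with
    mul_comm := fun x y => Subtype.ext (hF.comm x (le_sup_left (a := D1) x.2) y
      (le_sup_left (a := D1) y.2)) }
  let _ : CommGroup D2 := { (inferInstance : Group D2) with
    mul_comm := fun x y => Subtype.ext (hF.comm x (le_sup_right (a := D1) x.2) y
      (le_sup_right (a := D1) y.2)) }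
  have _ : Fintype D1 := Fintype.ofFinite D1
  have _ : Fintype D2 := Fintype.ofFinite D2
  have hnt : Nontrivial D1 := (Subgroup.nontrivial_iff_ne_bot D1).mpr hF.ne
  have hte : t ^ e = 1 := by rw [← hF.ord]; exact pow_orderOf_eq_one t
  set τ1 : MulAut D1 := MulAut.conjNormal t with hτ1
  set τ2 : MulAut D2 := MulAut.conjNormal t with hτ2
  have hτi1 : ∀ (i : ℕ) (d : D1), (((τ1 ^ i) d : D1) : Γ) = t ^ i * d * (t ^ i)⁻¹ := by
    intro i d
    rw [hτ1, ← map_pow, MulAut.conjNormal_apply]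
  have hτi2 : ∀ (i : ℕ) (d : D2), (((τ2 ^ i) d : D2) : Γ) = t ^ i * d * (t ^ i)⁻¹ := by
    intro i d
    rw [hτ2, ← map_pow, MulAut.conjNormal_apply]
  have hτe1 : τ1 ^ e = 1 := by
    ext d
    rw [hτi1, hte]
    simp
  have hτe2 : τ2 ^ e = 1 := by
    ext d
    rw [hτi2, hte]
    simp
  have hτf : ∀ (i : ℕ) (d : D1), d ≠ 1 → (τ1 ^ i) d = d → e ∣ i := by
    intro i d hd h
    apply hF.free i d d.2 (fun h1 => hd (Subtype.ext h1))
    have h2 := congrArg (Subtype.val) h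
    rw [hτi1] at h2
    exact mul_inv_eq_iff_eq_mul.mp h2
  have hpe : ¬ p ∣ e := not_dvd_of_free p τ1 e he hF.p1 hτe1 hτf
  obtain ⟨S1⟩ := k1 p k D1 τ1 e he hpe hF.p1 hnt hτe1 hτf
  have hek : (e : k) ≠ 0 := by
    intro h
    exact hpe ((CharP.cast_eq_zero_iff k p e).mp h)
  obtain ⟨S2⟩ := exists_m2dat p k D2 hF.p2 τ2 e hτe2 hek S1.ζ S1.prim
  have hcc : ∀ (x : D1) (y : D2), D1.subtype x * D2.subtype y = D2.subtype y * D1.subtype x :=
    fun x y => hF.comm x (le_sup_left (a := D1) x.2) y (le_sup_right (a := D1) y.2)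
  have hprod : ∀ g ∈ D1 ⊔ D2, ∃ (x : D1) (y : D2), g = (x : Γ) * y := by
    intro g hg
    obtain ⟨x, hx, y, hy, rfl⟩ := Subgroup.mem_sup_of_normal_right.mp hg
    exact ⟨⟨x, hx⟩, ⟨y, hy⟩, rfl⟩
  have hcardD : Nat.card ↥(D1 ⊔ D2) = Nat.card D1 * Nat.card D2 := by
    rw [← Nat.card_prod]
    refine (Nat.card_congr (Equiv.ofBijective
      (fun q : D1 × D2 => (⟨(q.1 : Γ) * q.2, mul_mem (le_sup_left (a := D1) q.1.2)
        (le_sup_right (a := D1) q.2.2)⟩ : ↥(D1 ⊔ D2))) ⟨?_, ?_⟩)).symm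
    · rintro ⟨x, y⟩ ⟨x', y'⟩ h
      have h1 : (x : Γ) * y = x' * y' := congrArg Subtype.val h
      have h2 : (x' : Γ)⁻¹ * x = y' * (y : Γ)⁻¹ := by
        rw [inv_mul_eq_iff_eq_mul, ← mul_assoc, ← h1, mul_inv_cancel_right]
      have h3 : (x' : Γ)⁻¹ * x ∈ D1 ⊓ D2 :=
        ⟨D1.mul_mem (D1.inv_mem x'.2) x.2, by rw [h2]; exact D2.mul_mem y'.2 (D2.inv_mem y.2)⟩
      rw [hF.disj, Subgroup.mem_bot] at h3
      have h4 : (x : Γ) = x' := (inv_mul_eq_one.mp h3).symm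
      have h5 : (y : Γ) = y' := by
        rw [h2] at h3
        exact (mul_inv_eq_one.mp h3).symm
      exact Prod.ext (Subtype.ext h4) (Subtype.ext h5)
    · rintro ⟨g, hg⟩
      obtain ⟨x, y, rfl⟩ := hprod g hg
      exact ⟨(x, y), rfl⟩
  have hcard : Fintype.card Γ = Fintype.card D1 * Fintype.card D2 * e := by
    have h1 := hF.compl.card_mul_card
    rw [Nat.card_zpowers, hF.ord, hcardD] at h1
    rw [← Nat.card_eq_fintype_card, ← Nat.card_eq_fintype_card, ← Nat.card_eq_fintype_card, h1]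
  have hsp : ∀ g : Γ, ∃ (x : D1) (y : D2) (i : ℕ), g = D1.subtype x * D2.subtype y * t ^ i := by
    intro g
    obtain ⟨⟨d, y⟩, hxy⟩ := hF.compl.2 g
    obtain ⟨i, hi⟩ := mem_powers_iff_mem_zpowers.mpr y.2
    obtain ⟨x1, x2, hx⟩ := hprod d d.2
    refine ⟨x1, x2, i, ?_⟩
    rw [← hxy]
    show (d : Γ) * (y : Γ) = (x1 : Γ) * x2 * t ^ i
    rw [← hi, hx]
  have ht1 : ∀ d, t * D1.subtype d = D1.subtype (τ1 d) * t := by
    intro d
    have := hτi1 1 d
    rw [pow_one, pow_one] at this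
    show t * (d : Γ) = ((τ1 d : D1) : Γ) * t
    rw [this]; group
  have ht2 : ∀ d, t * D2.subtype d = D2.subtype (τ2 d) * t := by
    intro d
    have := hτi2 1 d
    rw [pow_one, pow_one] at this
    show t * (d : Γ) = ((τ2 d : D2) : Γ) * t
    rw [this]; group
  set G := gdat S1 S2 D1.subtype D2.subtype t hcard hek ht1 ht2 hcc hte hsp with hG
  have hP : Vale.P179.H737.R.PEig fun c : ZMod e => S2.P c := by
    have h1 := hbr k D2 τ2 e hτe2 hek S1.ζ S1.prim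
    have h2 : (fun c : ZMod e => S2.P c) =
        fun c : ZMod e => finrank k ((alE k τ2).eigenspace (S1.ζ ^ c.val)) := by
      funext c
      exact S2.P_eq S1.prim c
    rw [h2]
    exact h1
  refine ⟨S1.N, S1.c, ⟨{
    W := fun r => G.gr r
    J := G.rad
    ε := G.eps
    P := fun c => S2.P c
    hM := S1.hN
    basic := G.basic
    sum := G.sum_eps
    orth := fun a b hab => by rw [G.idem, if_neg hab]
    supp := fun r hr => G.gr_eq_bot r fun w hw h => hr w hw h.symm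
    hP := hP
    dim := ?_
    top := G.top_mem (mul_sum_of k Γ)
    deg0 := ?_
    degt := ?_ }⟩⟩
  · intro a b
    rw [G.gd_cor2]
    simp only [CHz_apply, Finset.sum_mul, AddMonoidAlgebra.single_mul_single, add_zero]
    rw [Finset.sum_comm]
    refine Finset.sum_congr rfl fun w _ => ?_
    have h1 : (num2 S1 S2 w (b - a) : ℤ) = ∑ s : ZMod e,
        (((if (w : ZMod e) = s - a then 1 else 0) + S1.c : ℕ) : ℤ) * ((S2.P (b - s) : ℕ) : ℤ) := by
      unfold num2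
      push_cast
      refine Fintype.sum_equiv (Equiv.addRight a) _ _ fun c => ?_
      simp only [Equiv.coe_addRight, add_sub_cancel_right]
      rw [show b - a - c = b - (c + a) by ring]
    rw [h1]
    have h2 := map_sum (AddMonoidAlgebra.singleAddHom (R := ℤ) (w : ℚ)) (fun s : ZMod e =>
      (((if (w : ZMod e) = s - a then 1 else 0) + S1.c : ℕ) : ℤ) * ((S2.P (b - s) : ℕ) : ℤ))
      Finset.univ
    exact h2
  · intro x hx
    have h1 := gdat_deg0 S1 S2 D1.subtype D2.subtype t hcard hek ht1 ht2 hcc hte hsp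
      (MonoidAlgebra.single ⟨x, hx⟩ 1)
    rw [io_single] at h1
    exact h1
  · exact gdat_degt S1 S2 D1.subtype D2.subtype t hcard hek ht1 ht2 hcc hte hsp

end P179H342
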