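import Vale.Agent.P179.H342.R4
import Vale.Agent.P179.H342.K2e
import Vale.Agent.P179.H737.REig
import Vale.Agent.P179.H737.RFree

/-!
# Relative version, part 5: the graded subalgebra `k[D1 : T]`
-/

namespace P179H342

open Module Vale.P179.H175 Vale.P179.H904 Vale.P179.H190 Vale.P179.Sgn

/-- The subalgebra `A1 = k[D1 : T]` of `A = k[(D1 × D2) : T]`, with the same idempotents. -/
structure RGr1 (k A A1 Γ Γ1 : Type) [Field k] [Ring A] [Algebra k A] [Ring A1] [Algebra k A1]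
    [Group Γ] [Fintype Γ] [Group Γ1] [Fintype Γ1] (γ : Γ →* A) (γ1 : Γ1 →* A1) (i1 : Γ1 →* Γ)
    (D2 : Subgroup Γ) (t : Γ) (e M c : ℕ) [NeZero e] (R : RGr k A Γ γ D2 t e M c) where
  /-- the graded algebra `A1` -/
  H1 : HGr k A1 Γ1 γ1 e M c
  /-- the inclusion -/
  κ : A1 →ₐ[k] A
  κγ : ∀ x, κ (γ1 x) = γ (i1 x)
  κW : ∀ r, ∀ h ∈ H1.W r, κ h ∈ R.W r
  κε : ∀ a, κ (H1.ε a) = R.ε a
  /-- `A` is projective over `A1` -/
  free : ∃ l : A →ₗ[k] A, ∀ a, ∑ x : Γ1, γ (i1 x) * l (γ (i1 x⁻¹) * a) = a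

section

variable {k : Type} [Field k] {D1 D2 Γ Γ1 : Type} [CommGroup D1] [CommGroup D2] [Group Γ]
  [Group Γ1] {e : ℕ} {τ1 : MulAut D1} {τ2 : MulAut D2} (S1 : K1Dat k D1 τ1 e)
  (S2 : M2Dat k D2 τ2 S1.ζ)
  [NeZero e] (j1 : D1 →* Γ) (j2 : D2 →* Γ) (t : Γ) [Fintype D1] [Fintype D2] [Fintype Γ]
  [Fintype Γ1]
    (hcard : Fintype.card Γ = Fintype.card D1 * Fintype.card D2 * e)
    (he : (e : k) ≠ 0) (ht1 : ∀ d, t * j1 d = j1 (τ1 d) * t) (ht2 : ∀ d, t * j2 d = j2 (τ2 d) * t)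
    (hc : ∀ x y, j1 x * j2 y = j2 y * j1 x) (hte : t ^ e = 1)
    (hsp : ∀ g : Γ, ∃ (x : D1) (y : D2) (i : ℕ), g = j1 x * j2 y * t ^ i)
    (jj : D1 →* Γ1) (t1 : Γ1) (hcard1 : Fintype.card Γ1 = Fintype.card D1 * e)
    (hjj : Function.Injective jj) (htt : ∀ d, t1 * jj d = jj (τ1 d) * t1) (hte1 : t1 ^ e = 1)
    (hsp1 : ∀ g : Γ1, ∃ (d : D1) (i : ℕ), g = jj d * t1 ^ i)
    (i1 : Γ1 →* Γ) (hi : ∀ d, i1 (jj d) = j1 d) (hit : i1 t1 = t)

include hi in
theorem map_io (a : MonoidAlgebra k D1) :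
    MonoidAlgebra.mapDomainAlgHom k k i1 (io k jj a) = io k j1 a := by
  induction a using MonoidAlgebra.induction_linear with
  | zero => simp
  | add x y hx hy => rw [map_add, map_add, map_add, hx, hy]
  | single d r =>
    rw [io_single, io_single, ← hi]
    exact MonoidAlgebra.mapDomain_single

include hit in
theorem map_ide (χ : AddChar (ZMod e) k) (a : ZMod e) :
    MonoidAlgebra.mapDomainAlgHom k k i1 (ide χ (MonoidAlgebra.single t1 1) a)
      = ide χ (MonoidAlgebra.single t 1) a := by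
  unfold ide uu
  rw [map_smul, map_sum]
  congr 1
  refine Finset.sum_congr rfl fun i _ => ?_
  rw [map_smul, map_pow]
  congr 2
  rw [← hit]
  exact MonoidAlgebra.mapDomain_single

include hi hit in
theorem map_gr (r : ℚ) (h : MonoidAlgebra k Γ1)
    (hh : h ∈ (kdat S1 jj t1 hcard1 he hjj htt hte1 hsp1).gr r) :
    MonoidAlgebra.mapDomainAlgHom k k i1 h ∈
      (gdat S1 S2 j1 j2 t hcard he ht1 ht2 hc hte hsp).gr r := by
  set G := gdat S1 S2 j1 j2 t hcard he ht1 ht2 hc hte hsp with hG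
  set G1 := kdat S1 jj t1 hcard1 he hjj htt hte1 hsp1 with hG1
  unfold KDat.gr grd at hh
  induction hh using Submodule.span_induction with
  | zero => rw [map_zero]; exact Submodule.zero_mem _
  | add u v _ _ hu hv => rw [map_add]; exact Submodule.add_mem _ hu hv
  | smul r u _ hu => rw [map_smul]; exact Submodule.smul_mem _ _ hu
  | mem u hu =>
    obtain ⟨⟨x, a⟩, hx, rfl⟩ := hu
    have hx' : ((G1.deg x : ℕ) : ℚ) = r := hx
    rw [KDat.bas_apply, map_mul]
    have h1 : MonoidAlgebra.mapDomainAlgHom k k i1 (G1.m x)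
        = G.m ((x : S1.box), fun i => ⟨0, S2.q_pos i⟩) := by
      show MonoidAlgebra.mapDomainAlgHom k k i1 (io k jj (mono S1.z fun i => ((x : S1.box) i : ℕ)))
        = io k j1 (mono S1.z fun i => ((x : S1.box) i : ℕ)) *
          io k j2 (mono S2.z (fun i => ((⟨0, S2.q_pos i⟩ : Fin (S2.q i)) : ℕ)))
      have h : mono S2.z (fun i => ((⟨0, S2.q_pos i⟩ : Fin (S2.q i)) : ℕ)) = 1 := mono_zero S2.z
      rw [h, map_one, mul_one]
      exact map_io (k := k) j1 jj i1 hi _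
    have h2 : MonoidAlgebra.mapDomainAlgHom k k i1 (G1.eps a) = G.eps a :=
      map_ide (k := k) t t1 i1 hit _ a
    rw [h1, h2, ← hx']
    exact G.m_eps_mem (Δ := ℚ) ((x : S1.box), fun i => ⟨0, S2.q_pos i⟩) a

end

/-- module S4A relative to `D2`, with the subalgebra -/
def S4AR1 : Prop := ∀ (p : ℕ) [Fact p.Prime] (k : Type) [Field k] [IsAlgClosed k] [CharP k p]
  (Γ : Type) [Group Γ] [Fintype Γ] (D1 D2 : Subgroup Γ) (t : Γ) (e : ℕ) [NeZero e]
  [Fintype ↥(D1 ⊔ Subgroup.zpowers t)],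
  FreeCycR p Γ D1 D2 t e →
  ∃ (M c : ℕ) (R : RGr k (MonoidAlgebra k Γ) Γ (MonoidAlgebra.of k Γ) D2 t e M c),
    Nonempty (RGr1 k (MonoidAlgebra k Γ) (MonoidAlgebra k ↥(D1 ⊔ Subgroup.zpowers t)) Γ
      ↥(D1 ⊔ Subgroup.zpowers t) (MonoidAlgebra.of k Γ)
      (MonoidAlgebra.of k ↥(D1 ⊔ Subgroup.zpowers t)) (D1 ⊔ Subgroup.zpowers t).subtype D2 t e M c
      R)

theorem s4ar1 : S4AR1 := by
  intro p _ k _ _ _ Γ _ _ D1 D2 t e _ _ hF
  have he : e ≠ 0 := NeZero.ne e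
  have := hF.n1
  have := hF.n2
  let _ : CommGroup D1 := { (inferInstance : Group D1) with
    mul_comm := fun x y => Subtype.ext (hF.comm x (le_sup_left (a := D1) x.2) y
      (le_sup_left (a := D1) y.2)) }
  let _ : CommGroup D2 := { (inferInstance : Group D2) with
    mul_comm := fun x y => Subtype.ext (hF.comm x (le_sup_right (a := D1) x.2) y
      (le_sup_right (a := D1) y.2)) }
  have _ : Fintype D1 := Fintype.ofFinite D1
  have _ : Fintype D2 := Fintype.ofFinite D2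
  have hnt : Nontrivial D1 := (Subgroup.nontrivial_iff_ne_bot D1).mpr hF.ne
  have hte : t ^ e = 1 := by rw [← hF.ord]; exact pow_orderOf_eq_one t
  set τ1 : MulAut D1 := MulAut.conjNormal t with hτ1
  set τ2 : MulAut D2 := MulAut.conjNormal t with hτ2
  have hτi1 : ∀ (i : ℕ) (d : D1), (((τ1 ^ i) d : D1) : Γ) = t ^ i * d * (t ^ i)⁻¹ := by
    intro i d
    rw [hτ1, ← map_pow, MulAut.conjNormal_apply]
  have hτi2 : ∀ (i : ℕ) (d : D2), (((τ2 ^ i) d : D2) : Γ) = t ^ i * d * (t ^ i)⁻¹ := by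
    intro i d
    rw [hτ2, ← map_pow, MulAut.conjNormal_apply]
  have hτe1 : τ1 ^ e = 1 := by
    ext d
    rw [hτi1, hte]
    simp
  have hτe2 : τ2 ^ e = 1 := by
    ext d
    rw [hτi2, hte]
    simp
  have hτf : ∀ (i : ℕ) (d : D1), d ≠ 1 → (τ1 ^ i) d = d → e ∣ i := by
    intro i d hd h
    apply hF.free i d d.2 (fun h1 => hd (Subtype.ext h1))
    have h2 := congrArg (Subtype.val) h
    rw [hτi1] at h2
    exact mul_inv_eq_iff_eq_mul.mp h2
  have hpe : ¬ p ∣ e := not_dvd_of_free p τ1 e he hF.p1 hτe1 hτf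
  obtain ⟨S1⟩ := k1 p k D1 τ1 e he hpe hF.p1 hnt hτe1 hτf
  have hek : (e : k) ≠ 0 := by
    intro h
    exact hpe ((CharP.cast_eq_zero_iff k p e).mp h)
  obtain ⟨S2⟩ := exists_m2dat p k D2 hF.p2 τ2 e hτe2 hek S1.ζ S1.prim
  have hcc : ∀ (x : D1) (y : D2), D1.subtype x * D2.subtype y = D2.subtype y * D1.subtype x :=
    fun x y => hF.comm x (le_sup_left (a := D1) x.2) y (le_sup_right (a := D1) y.2)
  have hprod : ∀ g ∈ D1 ⊔ D2, ∃ (x : D1) (y : D2), g = (x : Γ) * y := by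
    intro g hg
    obtain ⟨x, hx, y, hy, rfl⟩ := Subgroup.mem_sup_of_normal_right.mp hg
    exact ⟨⟨x, hx⟩, ⟨y, hy⟩, rfl⟩
  have hcardD : Nat.card ↥(D1 ⊔ D2) = Nat.card D1 * Nat.card D2 := by
    rw [← Nat.card_prod]
    refine (Nat.card_congr (Equiv.ofBijective
      (fun q : D1 × D2 => (⟨(q.1 : Γ) * q.2, mul_mem (le_sup_left (a := D1) q.1.2)
        (le_sup_right (a := D1) q.2.2)⟩ : ↥(D1 ⊔ D2))) ⟨?_, ?_⟩)).symm
    · rintro ⟨x, y⟩ ⟨x', y'⟩ h
      have h1 : (x : Γ) * y = x' * y' := congrArg Subtype.val h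
      have h2 : (x' : Γ)⁻¹ * x = y' * (y : Γ)⁻¹ := by
        rw [inv_mul_eq_iff_eq_mul, ← mul_assoc, ← h1, mul_inv_cancel_right]
      have h3 : (x' : Γ)⁻¹ * x ∈ D1 ⊓ D2 :=
        ⟨D1.mul_mem (D1.inv_mem x'.2) x.2, by rw [h2]; exact D2.mul_mem y'.2 (D2.inv_mem y.2)⟩
      rw [hF.disj, Subgroup.mem_bot] at h3
      have h4 : (x : Γ) = x' := (inv_mul_eq_one.mp h3).symm
      have h5 : (y : Γ) = y' := by
        rw [h2] at h3
        exact (mul_inv_eq_one.mp h3).symm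
      exact Prod.ext (Subtype.ext h4) (Subtype.ext h5)
    · rintro ⟨g, hg⟩
      obtain ⟨x, y, rfl⟩ := hprod g hg
      exact ⟨(x, y), rfl⟩
  have hcard : Fintype.card Γ = Fintype.card D1 * Fintype.card D2 * e := by
    have h1 := hF.compl.card_mul_card
    rw [Nat.card_zpowers, hF.ord, hcardD] at h1
    rw [← Nat.card_eq_fintype_card, ← Nat.card_eq_fintype_card, ← Nat.card_eq_fintype_card, h1]
  have hsp : ∀ g : Γ, ∃ (x : D1) (y : D2) (i : ℕ), g = D1.subtype x * D2.subtype y * t ^ i := by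
    intro g
    obtain ⟨⟨d, y⟩, hxy⟩ := hF.compl.2 g
    obtain ⟨i, hi⟩ := mem_powers_iff_mem_zpowers.mpr y.2
    obtain ⟨x1, x2, hx⟩ := hprod d d.2
    refine ⟨x1, x2, i, ?_⟩
    rw [← hxy]
    show (d : Γ) * (y : Γ) = (x1 : Γ) * x2 * t ^ i
    rw [← hi, hx]
  have ht1 : ∀ d, t * D1.subtype d = D1.subtype (τ1 d) * t := by
    intro d
    have := hτi1 1 d
    rw [pow_one, pow_one] at this
    show t * (d : Γ) = ((τ1 d : D1) : Γ) * t
    rw [this]; group
  have ht2 : ∀ d, t * D2.subtype d = D2.subtype (τ2 d) * t := by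
    intro d
    have := hτi2 1 d
    rw [pow_one, pow_one] at this
    show t * (d : Γ) = ((τ2 d : D2) : Γ) * t
    rw [this]; group
  set G := gdat S1 S2 D1.subtype D2.subtype t hcard hek ht1 ht2 hcc hte hsp with hG
  have hP : Vale.P179.H737.R.PEig fun c : ZMod e => S2.P c := by
    have h1 := Vale.P179.H737.R.PEig_eig k D2 τ2 e S1.ζ S1.prim
    have h2 : (fun c : ZMod e => S2.P c) =
        fun c : ZMod e => finrank k ((alE k τ2).eigenspace (S1.ζ ^ c.val)) := by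
      funext c
      exact S2.P_eq S1.prim c
    rw [h2]
    exact h1
  -- the subgroup
  set t1 : ↥(D1 ⊔ Subgroup.zpowers t) :=
    ⟨t, (le_sup_right (a := D1)) (Subgroup.mem_zpowers t)⟩ with ht1'
  set jj : D1 →* ↥(D1 ⊔ Subgroup.zpowers t) := Subgroup.inclusion (le_sup_left (a := D1)) with hjj
  have hjj' : Function.Injective jj := Subgroup.inclusion_injective _
  have htt : ∀ d, t1 * jj d = jj (τ1 d) * t1 := fun d => Subtype.ext (ht1 d)
  have hte1 : t1 ^ e = 1 := Subtype.ext (by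
    show t ^ e = 1
    exact hte)
  have hsp1 : ∀ g : ↥(D1 ⊔ Subgroup.zpowers t), ∃ (d : D1) (i : ℕ), g = jj d * t1 ^ i := by
    rintro ⟨g, hg⟩
    obtain ⟨x, hx, y, hy, rfl⟩ := Subgroup.mem_sup_of_normal_left.mp hg
    obtain ⟨i, hi⟩ := mem_powers_iff_mem_zpowers.mpr hy
    exact ⟨⟨x, hx⟩, i, Subtype.ext (by
      show x * y = x * t ^ i
      rw [← hi])⟩
  have hcard1 : Fintype.card ↥(D1 ⊔ Subgroup.zpowers t) = Fintype.card D1 * e := by
    have hdis : ∀ (x : D1) (i : ℕ), (x : Γ) = t ^ i → x = 1 := by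
      intro x i hx
      have h1 : (x : Γ) ∈ (D1 ⊔ D2) ⊓ Subgroup.zpowers t :=
        ⟨le_sup_left (a := D1) x.2, by rw [hx]; exact ⟨(i : ℤ), by simp⟩⟩
      rw [hF.compl.disjoint.eq_bot, Subgroup.mem_bot] at h1
      exact Subtype.ext h1
    have hb : Function.Bijective (fun q : D1 × Fin e => jj q.1 * t1 ^ (q.2 : ℕ)) := by
      constructor
      · rintro ⟨x, i⟩ ⟨y, j⟩ h
        have h1 : (x : Γ) * t ^ (i : ℕ) = y * t ^ (j : ℕ) := congrArg Subtype.val h
        have key : ∀ (x y : D1) (i j : Fin e), (i : ℕ) ≤ j →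
            (x : Γ) * t ^ (i : ℕ) = y * t ^ (j : ℕ) → x = y ∧ i = j := by
          intro x y i j hij h1
          have h2 : ((y⁻¹ * x : D1) : Γ) = t ^ ((j : ℕ) - i) := by
            have h3 : t ^ (j : ℕ) = t ^ ((j : ℕ) - i) * t ^ (i : ℕ) := by
              rw [← pow_add, Nat.sub_add_cancel hij]
            rw [h3, ← mul_assoc] at h1
            have h4 := mul_right_cancel h1
            show (y : Γ)⁻¹ * x = _
            rw [h4, inv_mul_cancel_left]
          have h5 := hdis _ _ h2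
          have h6 : x = y := (inv_mul_eq_one.mp h5).symm
          refine ⟨h6, ?_⟩
          have h7 : t ^ ((j : ℕ) - i) = 1 := by rw [← h2, h5]; rfl
          have h8 := orderOf_dvd_of_pow_eq_one h7
          rw [hF.ord] at h8
          have h9 := Nat.eq_zero_of_dvd_of_lt h8 (by have := j.2; omega)
          exact Fin.ext (by omega)
        rcases le_total (i : ℕ) j with hij | hij
        · obtain ⟨h2, h3⟩ := key x y i j hij h1
          exact Prod.ext h2 h3
        · obtain ⟨h2, h3⟩ := key y x j i hij h1.symm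
          exact Prod.ext h2.symm h3.symm
      · intro g
        obtain ⟨d, i, rfl⟩ := hsp1 g
        refine ⟨(d, ⟨i % e, Nat.mod_lt _ (Nat.pos_of_ne_zero he)⟩), ?_⟩
        show jj d * t1 ^ (i % e) = jj d * t1 ^ i
        rw [← pow_eq_pow_mod _ hte1]
    rw [← Fintype.card_congr (Equiv.ofBijective _ hb), Fintype.card_prod, Fintype.card_fin]
  refine ⟨S1.N, S1.c, {
    W := fun r => G.gr r
    J := G.rad
    ε := G.eps
    P := fun c => S2.P c
    hM := S1.hN
    basic := G.basic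
    sum := G.sum_eps
    orth := fun a b hab => by rw [G.idem, if_neg hab]
    supp := fun r hr => G.gr_eq_bot r fun w hw h => hr w hw h.symm
    hP := hP
    dim := ?_
    top := G.top_mem (mul_sum_of k Γ)
    deg0 := ?_
    degt := ?_ }, ⟨{
    H1 := (kdat S1 jj t1 hcard1 hek hjj' htt hte1 hsp1).hgr
      (MonoidAlgebra.of k ↥(D1 ⊔ Subgroup.zpowers t)) S1.hN
      (mul_sum_of k ↥(D1 ⊔ Subgroup.zpowers t))
    κ := MonoidAlgebra.mapDomainAlgHom k k (D1 ⊔ Subgroup.zpowers t).subtype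
    κγ := fun x => MonoidAlgebra.mapDomain_single
    κW := fun r h hh => map_gr S1 S2 D1.subtype D2.subtype t hcard hek ht1 ht2 hcc hte hsp jj t1
      hcard1 hjj' htt hte1 hsp1 (D1 ⊔ Subgroup.zpowers t).subtype (fun d => rfl) rfl r h hh
    κε := fun a => map_ide (k := k) t t1 (D1 ⊔ Subgroup.zpowers t).subtype rfl _ a
    free := Vale.P179.H737.R.exists_free _ (Subgroup.subtype_injective _) }⟩⟩
  · intro a b
    rw [G.gd_cor2]
    simp only [CHz_apply, Finset.sum_mul, AddMonoidAlgebra.single_mul_single, add_zero]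
    rw [Finset.sum_comm]
    refine Finset.sum_congr rfl fun w _ => ?_
    have h1 : (num2 S1 S2 w (b - a) : ℤ) = ∑ s : ZMod e,
        (((if (w : ZMod e) = s - a then 1 else 0) + S1.c : ℕ) : ℤ) * ((S2.P (b - s) : ℕ) : ℤ) := by
      unfold num2
      push_cast
      refine Fintype.sum_equiv (Equiv.addRight a) _ _ fun c => ?_
      simp only [Equiv.coe_addRight, add_sub_cancel_right]
      rw [show b - a - c = b - (c + a) by ring]
    rw [h1]
    have h2 := map_sum (AddMonoidAlgebra.singleAddHom (R := ℤ) (w : ℚ)) (fun s : ZMod e =>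
      (((if (w : ZMod e) = s - a then 1 else 0) + S1.c : ℕ) : ℤ) * ((S2.P (b - s) : ℕ) : ℤ))
      Finset.univ
    exact h2
  · intro x hx
    have h1 := gdat_deg0 S1 S2 D1.subtype D2.subtype t hcard hek ht1 ht2 hcc hte hsp
      (MonoidAlgebra.single ⟨x, hx⟩ 1)
    rw [io_single] at h1
    exact h1
  · exact gdat_degt S1 S2 D1.subtype D2.subtype t hcard hek ht1 ht2 hcc hte hsp

end P179H342
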