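import Vale.Agent.P179.H342.R4
import Vale.Agent.P179.H737.REig

/-!
# Module S4A relative to a factor
-/

namespace P179H342

theorem s4ar : S4AR := s4ar_of fun k _ D _ _ τ e _ _ _ ζ hζ =>
  Vale.P179.H737.R.PEig_eig k D τ e ζ hζ

end P179H342
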